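import Vale.Agent.P181.H59.SpecG

/-!
# P181, S5: the glue of the star design with the orbit inequality
-/

set_option autoImplicit false

namespace Vale.Agent.P181.H261

open Finset MvPolynomial
open Vale.Agent.P181 Vale.Agent.P181.H280 Vale.Agent.P181.FR Vale.Agent.P181.H188W
open Vale.Agent.P181.T4 Vale.Agent.P181.H463 Vale.Agent.P181.H59

namespace Mat5

/-- a balanced degree function. -/
lemma exists_balanced (b s : ℕ) (hb : 0 < b) :
    ∃ d : Fin b → ℕ, (∀ p q, d p ≤ d q + 1) ∧ ∑ p, d p = s := by
  refine ⟨fun p => s / b + if (p : ℕ) < s % b then 1 else 0, ?_, ?_⟩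
  · intro p q
    dsimp only
    split_ifs <;> omega
  · rw [sum_add_distrib, sum_const, card_univ, Fintype.card_fin, smul_eq_mul, sum_boole,
      Nat.cast_id]
    have h1 : (univ.filter fun p : Fin b => (p : ℕ) < s % b).card = s % b := by
      have h2 := Nat.mod_lt s hb
      rw [Fin.card_filter_val_lt, min_eq_right h2.le]
    rw [h1]
    exact Nat.div_add_mod s b

/-- the masked configuration. -/
noncomputable def mask {b a R : ℕ} (st : Fin R → Finset (Fin b)) (t : Fin a × Fin b → ℂ) :
    Fin b → Fin a → ℂ :=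
  fun p i => if h : (i : ℕ) < R then (if p ∈ st ⟨i, h⟩ then t (i, p) else 0) else t (i, p)

/-- the masked configuration, polynomial version. -/
noncomputable def maskP {b a R : ℕ} (st : Fin R → Finset (Fin b)) :
    Fin b → Fin a → MvPolynomial (Fin a × Fin b) ℂ :=
  fun p i => if h : (i : ℕ) < R then (if p ∈ st ⟨i, h⟩ then X (i, p) else 0) else X (i, p)

lemma eval_maskP {b a R : ℕ} (st : Fin R → Finset (Fin b)) (t : Fin a × Fin b → ℂ)
    (p : Fin b) (i : Fin a) : eval t (maskP st p i) = mask st t p i := by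
  rw [maskP, mask]
  split_ifs
  · rw [eval_X]
  · rw [map_zero]
  · rw [eval_X]

/-- the polynomial of the minor. -/
noncomputable def minorP {b a R n : ℕ} (st : Fin R → Finset (Fin b)) (hn : n ≤ a)
    (u : Fin n → Fin b) : MvPolynomial (Fin a × Fin b) ℂ :=
  Matrix.det (Matrix.of fun r s : Fin n => maskP st (u r) (Fin.castLE hn s))

lemma eval_minorP {b a R n : ℕ} (st : Fin R → Finset (Fin b)) (hn : n ≤ a)
    (u : Fin n → Fin b) (t : Fin a × Fin b → ℂ) :
    eval t (minorP st hn u) = dt hn u (mask st t) := by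
  rw [minorP, RingHom.map_det, dt]
  congr 1
  ext r s
  rw [RingHom.mapMatrix_apply, Matrix.map_apply, Matrix.of_apply, Matrix.of_apply, eval_maskP]

/-- the minor is a non-zero polynomial if there are distinct representatives. -/
lemma minorP_ne {b a R n : ℕ} (st : Fin R → Finset (Fin b)) (hn : n ≤ a) (hR : R ≤ n)
    (A : Finset (Fin b)) (hA : A.card = n) (u : Fin n → Fin b) (hu : Function.Injective u)
    (huA : ∀ s, u s ∈ A) (hS : HasSDR st A) : minorP st hn u ≠ 0 := by
  classical
  obtain ⟨φ, hφ, hφA⟩ := hS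
  rcases Nat.eq_zero_or_pos n with h0 | h0
  · subst h0
    rw [minorP, Matrix.det_isEmpty]
    exact one_ne_zero
  let f : Fin n → Fin b := fun s => if h : (s : ℕ) < R then φ ⟨s, h⟩ else u s
  have hcard : Fintype.card (Fin n) = A.card := by rw [Fintype.card_fin, hA]
  have him : (univ.filter fun s : Fin n => (s : ℕ) < R).image f ⊆ A := by
    intro p hp
    rw [mem_image] at hp
    obtain ⟨s, hs, rfl⟩ := hp
    rw [mem_filter] at hs
    simp only [f]
    rw [dif_pos hs.2]
    exact (hφA _).1
  have hinj : Set.InjOn f ((univ.filter fun s : Fin n => (s : ℕ) < R : Finset (Fin n)) :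
      Set (Fin n)) := by
    intro s hs s' hs' h
    rw [mem_coe, mem_filter] at hs hs'
    simp only [f] at h
    rw [dif_pos hs.2, dif_pos hs'.2] at h
    have := hφ h
    rw [Fin.mk.injEq] at this
    exact Fin.ext this
  obtain ⟨g, hg⟩ := Finset.exists_equiv_extend_of_card_eq hcard him hinj
  -- the coordinates with value one
  let t : Fin a × Fin b → ℂ := fun x => if ∃ s : Fin n, Fin.castLE hn s = x.1 ∧
    ((g s : A) : Fin b) = x.2 then 1 else 0
  intro hz
  have h1 : eval t (minorP st hn u) = 0 := by rw [hz, map_zero]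
  rw [eval_minorP, dt] at h1
  let w : Equiv.Perm (Fin n) := Equiv.ofBijective (fun r => g.symm ⟨u r, huA r⟩) (by
    rw [Fintype.bijective_iff_injective_and_card]
    refine ⟨fun r r' h => ?_, rfl⟩
    have := g.symm.injective h
    rw [Subtype.mk.injEq] at this
    exact hu this)
  have hw : ∀ r, ((g (w r) : A) : Fin b) = u r := by
    intro r
    change ((g (g.symm ⟨u r, huA r⟩) : A) : Fin b) = u r
    rw [Equiv.apply_symm_apply]
  have h2 : (Matrix.of fun r s : Fin n => mask st t (u r) (Fin.castLE hn s)) =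
      (1 : Matrix (Fin n) (Fin n) ℂ).submatrix w id := by
    ext r s
    rw [Matrix.of_apply, Matrix.submatrix_apply, id, Matrix.one_apply]
    have ht : t (Fin.castLE hn s, u r) = if w r = s then 1 else 0 := by
      simp only [t]
      by_cases h : w r = s
      · rw [if_pos h, if_pos ⟨s, rfl, by rw [← h, hw]⟩]
      · rw [if_neg h, if_neg]
        rintro ⟨s', h1, h2⟩
        have h3 : s' = s := by
          apply Fin.ext
          have := congrArg Fin.val h1
          simpa using this
        subst h3
        apply h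
        apply g.injective
        apply Subtype.ext
        rw [hw, h2]
    by_cases hs : (s : ℕ) < R
    · have hs' : ((Fin.castLE hn s : Fin a) : ℕ) < R := by
        rw [Fin.val_castLE]
        exact hs
      rw [mask, dif_pos hs', ht]
      by_cases h : w r = s
      · rw [if_pos h]
        rw [if_pos]
        have h4 : f s = u r := by
          rw [← hw r, h]
          exact (hg s (mem_filter.2 ⟨mem_univ _, hs⟩)).symm
        simp only [f] at h4
        rw [dif_pos hs] at h4
        rw [← h4]
        exact (hφA _).2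
      · rw [if_neg h]
        split_ifs <;> rfl
    · have hs' : ¬ ((Fin.castLE hn s : Fin a) : ℕ) < R := by
        rw [Fin.val_castLE]
        exact hs
      rw [mask, dif_neg hs', ht]
  rw [h2, Matrix.det_permute, Matrix.det_one, mul_one] at h1
  have h3 : ((Equiv.Perm.sign w : ℤˣ) : ℤ) ≠ 0 := Units.ne_zero _
  apply h3
  exact_mod_cast h1

/-- the minor vanishes if the letters miss a star. -/
lemma dt_mask_zero {b a R n : ℕ} (st : Fin R → Finset (Fin b)) (t : Fin a × Fin b → ℂ)
    (hn : n ≤ a) (hR : R ≤ n) (u : Fin n → Fin b) (i : Fin R) (hi : ∀ r, u r ∉ st i) :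
    dt hn u (mask st t) = 0 := by
  classical
  rw [dt]
  have hin : (i : ℕ) < n := lt_of_lt_of_le i.2 hR
  refine Matrix.det_eq_zero_of_column_eq_zero ⟨i, hin⟩ fun r => ?_
  rw [Matrix.of_apply, mask]
  have h : ((Fin.castLE hn ⟨i, hin⟩ : Fin a) : ℕ) < R := by
    rw [Fin.val_castLE]
    exact i.2
  rw [dif_pos h, if_neg]
  exact hi r

/-- a common point where finitely many non-zero polynomials do not vanish. -/
lemma exists_common {σ κ : Type} [Fintype κ] (Q : κ → MvPolynomial σ ℂ) (hQ : ∀ k, Q k ≠ 0) :
    ∃ t : σ → ℂ, ∀ k, eval t (Q k) ≠ 0 := by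
  classical
  have h1 : ∏ k, Q k ≠ 0 := prod_ne_zero_iff.2 fun k _ => hQ k
  have h2 : ∃ t : σ → ℂ, eval t (∏ k, Q k) ≠ 0 := by
    by_contra h
    push Not at h
    apply h1
    apply MvPolynomial.funext
    intro x
    rw [h x, map_zero]
  obtain ⟨t, ht⟩ := h2
  refine ⟨t, fun k => ?_⟩
  rw [map_prod] at ht
  exact prod_ne_zero_iff.1 ht k (mem_univ k)

end Mat5

open Mat5

/-- **[S5-MAT]** -/
theorem mat_stmt : MatStmt := by
  classical
  intro a b R N len lam η hb hD hlen hη hcol hsum
  obtain ⟨st, hst⟩ := hD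
  obtain ⟨d, hd, hds⟩ := exists_balanced b (∑ i, η i) hb
  -- sizes
  have hlenC : ∀ c, (univ.filter fun i : Fin a => (i : ℕ) < len c).card = len c := by
    intro c
    rw [Fin.card_filter_val_lt, min_eq_right (hlen c).2]
  have hsum2 : ∑ c, len c + ∑ i, η i = a * b := by
    rw [← hsum]
    have h1 : ∑ i, lam i = ∑ i : Fin a, ((univ.filter fun c => (i : ℕ) < len c).card + η i) :=
      sum_congr rfl fun i _ => (hcol i).symm
    rw [h1, sum_add_distrib]
    congr 1
    calc ∑ c, len c = ∑ c, (univ.filter fun i : Fin a => (i : ℕ) < len c).card :=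
          sum_congr rfl fun c _ => (hlenC c).symm
      _ = ∑ i : Fin a, (univ.filter fun c => (i : ℕ) < len c).card := by
          simp only [card_filter]
          exact sum_comm
  have hda : ∀ p, d p ≤ a := by
    intro p
    by_contra h
    push Not at h
    have h1 : ∀ q, a ≤ d q := fun q => by have := hd p q; omega
    have h2 : ∑ q : Fin b, a < ∑ q, d q :=
      sum_lt_sum (fun q _ => h1 q) ⟨p, mem_univ p, h⟩
    rw [sum_const, card_univ, Fintype.card_fin, smul_eq_mul, hds, mul_comm] at h2
    omega
  -- the degree functions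
  have hgd1 : ∀ τ : Equiv.Perm (Fin b), ∀ p q, a - d (τ.symm p) ≤ a - d (τ.symm q) + 1 := by
    intro τ p q
    have h1 := hd (τ.symm q) (τ.symm p)
    have h2 := hda (τ.symm p)
    have h3 := hda (τ.symm q)
    omega
  have hgd2 : ∀ τ : Equiv.Perm (Fin b), ∑ p, (a - d (τ.symm p)) = ∑ c, len c := by
    intro τ
    have h1 : ∑ p, (a - d (τ.symm p)) = ∑ p, (a - d p) :=
      Equiv.sum_comp τ.symm fun p => a - d p
    have h2 : ∑ p, (a - d p) + ∑ p, d p = a * b := by
      rw [← sum_add_distrib]
      have h3 : ∀ p : Fin b, a - d p + d p = a := fun p => Nat.sub_add_cancel (hda p)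
      rw [sum_congr rfl fun p _ => h3 p, sum_const, card_univ, Fintype.card_fin, smul_eq_mul,
        mul_comm]
    rw [h1]
    omega
  have hex : ∀ τ : Equiv.Perm (Fin b), ∃ A : Fin N → Finset (Fin b), (∀ c, (A c).card = len c) ∧
      (∀ p, dgr A p = a - d (τ.symm p)) ∧ (∀ c, HasSDR st (A c)) ∧
      ∀ ρ : Equiv.Perm (Fin b), ρ ≠ 1 → ∃ c i, Disjoint ((A c).image ρ) (st i) := fun τ =>
    hst (fun p => a - d (τ.symm p)) (hgd1 τ) (hgd2 τ)
  choose A hA1 hA2 hA3 hA4 using hex
  let u : Equiv.Perm (Fin b) → (c : Fin N) → Fin (len c) → Fin b := fun τ c =>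
    (A τ c).orderEmbOfFin (hA1 τ c)
  have hu : ∀ τ c, Function.Injective (u τ c) := fun τ c =>
    ((A τ c).orderEmbOfFin (hA1 τ c)).injective
  have huA : ∀ τ c s, u τ c s ∈ A τ c := fun τ c s => orderEmbOfFin_mem _ _ s
  -- the common point
  obtain ⟨t, ht⟩ := exists_common
    (fun k : Equiv.Perm (Fin b) × Fin N => minorP st (hlen k.2).2 (u k.1 k.2))
    (fun k => minorP_ne st (hlen k.2).2 (hlen k.2).1 (A k.1 k.2) (hA1 k.1 k.2) _ (hu _ _)
      (huA _ _) (hA3 k.1 k.2))
  refine orbit_gt hη len (fun c => (hlen c).2) hcol d hd hds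
    (fun τ c s => τ.symm (u τ c s)) ?_ (mask st t) ?_
  · intro τ j
    have h1 : ∀ c, (univ.filter fun i => τ.symm (u τ c i) = j).card =
        if τ j ∈ A τ c then 1 else 0 := by
      intro c
      have hset : (univ.filter fun i => τ.symm (u τ c i) = j) =
          univ.filter fun i => u τ c i = τ j := by
        ext i
        simp only [mem_filter, mem_univ, true_and]
        rw [Equiv.symm_apply_eq]
      rw [hset]
      split_ifs with h
      · have hr : τ j ∈ Set.range ((A τ c).orderEmbOfFin (hA1 τ c)) := by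
          rw [range_orderEmbOfFin]
          exact h
        obtain ⟨i0, hi0⟩ := hr
        rw [card_eq_one]
        refine ⟨i0, ?_⟩
        ext i
        simp only [mem_filter, mem_univ, true_and, mem_singleton]
        constructor
        · intro hi
          exact hu τ c (hi.trans hi0.symm)
        · intro hi
          rw [hi]
          exact hi0
      · rw [card_eq_zero, filter_eq_empty_iff]
        intro i _ hi
        exact h (hi ▸ huA τ c i)
    rw [sum_congr rfl fun c _ => h1 c, ← card_filter]
    have h2 := hA2 τ (τ j)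
    rw [dgr, Equiv.symm_apply_apply] at h2
    rw [h2]
    exact Nat.sub_add_cancel (hda j)
  · intro τ σ
    constructor
    · intro h
      by_contra hne
      obtain ⟨c, i, hdis⟩ := hA4 τ (σ * τ⁻¹) (fun h' => hne (by
        rw [mul_inv_eq_one] at h'
        exact h'))
      apply h
      refine prod_eq_zero (mem_univ c) ?_
      refine dt_mask_zero st t (hlen c).2 (hlen c).1 _ i fun r hr => ?_
      refine (Finset.disjoint_left.1 hdis) ?_ hr
      rw [mem_image]
      exact ⟨u τ c r, huA τ c r, rfl⟩
    · intro h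
      subst h
      rw [prod_ne_zero_iff]
      intro c _
      have h1 := ht (σ, c)
      rw [eval_minorP] at h1
      have h2 : (fun s => σ (σ.symm (u σ c s))) = u σ c := by
        funext s
        rw [Equiv.apply_symm_apply]
      rw [h2]
      exact h1

end Vale.Agent.P181.H261
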