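import Vale.Agent.P181.H411.Seam3
import Vale.Agent.P181.H498.Mem
import Vale.Agent.P181.H463.LowGlue

set_option autoImplicit false

/-!
P181: the orbit inequality. If the matrix of the values of `b!` multipliers on one orbit of
configurations is nonsingular, then the multiplicity times `b!` is at least the number of linearly
independent cofactors.
-/

open MvPolynomial

namespace Vale.Agent.P181.H261

open Vale.Agent.P181 Vale.Agent.P181.H280 Vale.Agent.P181.FR Vale.Agent.P181.H188W
open Vale.Agent.P181.T4 Vale.Agent.P181.H463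

/-- The symmetrizations of a space of highest weight functions. -/
theorem finrank_map_symF_le {b a m : ℕ} {lam : Fin m → ℕ} (S : Submodule ℂ (Fn b m))
    (hS : S ≤ HWS b m a lam) :
    Module.finrank ℂ (S.map (symF b m)) ≤ plethMult b a m lam := by
  have hfin : Module.Finite ℂ S := Submodule.finiteDimensional_of_le hS
  have hfin2 : Module.Finite ℂ (S.map (symF b m)) := Module.Finite.map S (symF b m)
  let v : Fin (Module.finrank ℂ (S.map (symF b m))) → S.map (symF b m) :=
    Module.finBasis ℂ (S.map (symF b m))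
  have hv : LinearIndependent ℂ v := (Module.finBasis ℂ (S.map (symF b m))).linearIndependent
  have hex : ∀ i, ∃ G ∈ S, symF b m G = (v i : Fn b m) := fun i => (Submodule.mem_map.1 (v i).2)
  choose G hG hG2 using hex
  have h1 : LinearIndependent ℂ (fun i => symF b m (G i)) := by
    have : (fun i => symF b m (G i)) = fun i => ((v i : S.map (symF b m)) : Fn b m) :=
      funext hG2
    rw [this]
    exact hv.map' (S.map (symF b m)).subtype (Submodule.ker_subtype _)
  have h2 := plethMult_ge (b := b) (a := a) (m := m) (lam := lam) G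
    (fun i => (hS (hG i)).1) (fun i => (hS (hG i)).2) h1
  rwa [Fintype.card_fin] at h2

/-- **Orbit inequality, linear algebra part.** -/
theorem orbit_le {b a m : ℕ} {lam : Fin m → ℕ} {κ ι : Type*} [Fintype κ] [Fintype ι]
    (Θ : κ → Fn b m) (h : ι → Fn b m)
    (hMP : ∀ τ β, Θ τ * h β ∈ MP b m a) (hHW : ∀ τ β, HWF b m lam (Θ τ * h β))
    (hli : LinearIndependent ℂ h)
    (hsep : ∀ f ∈ Submodule.span ℂ (Set.range h), (∀ τ, symF b m (Θ τ * f) = 0) → f = 0) :
    Fintype.card ι ≤ Fintype.card κ * plethMult b a m lam := by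
  classical
  let W : Submodule ℂ (Fn b m) := Submodule.span ℂ (Set.range h)
  have hfinW : Module.Finite ℂ W := Module.Finite.span_of_finite ℂ (Set.finite_range h)
  let mulΘ : κ → (Fn b m →ₗ[ℂ] Fn b m) := fun τ => LinearMap.mulLeft ℂ (Θ τ)
  let S : κ → Submodule ℂ (Fn b m) := fun τ => W.map (mulΘ τ)
  have hS : ∀ τ, S τ ≤ HWS b m a lam := by
    intro τ
    rw [Submodule.map_le_iff_le_comap, Submodule.span_le]
    rintro _ ⟨β, rfl⟩
    exact ⟨hMP τ β, hHW τ β⟩
  have hfin : ∀ τ, Module.Finite ℂ ((S τ).map (symF b m)) := fun τ => by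
    have : Module.Finite ℂ (S τ) := Module.Finite.map W (mulΘ τ)
    exact Module.Finite.map (S τ) (symF b m)
  let g : W →ₗ[ℂ] ((τ : κ) → (S τ).map (symF b m)) :=
    LinearMap.pi fun τ => ((symF b m ∘ₗ mulΘ τ) ∘ₗ W.subtype).codRestrict _ (fun f =>
      Submodule.mem_map.2 ⟨Θ τ * (f : Fn b m), Submodule.mem_map.2 ⟨f, f.2, rfl⟩, rfl⟩)
  have hg : Function.Injective g := by
    rw [injective_iff_map_eq_zero]
    intro f hf
    apply Subtype.ext
    refine hsep f f.2 fun τ => ?_
    have h1 := congrFun hf τ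
    exact congrArg Subtype.val h1
  have h1 := LinearMap.finrank_le_finrank_of_injective hg
  rw [finrank_span_eq_card hli, Module.finrank_pi_fintype] at h1
  refine h1.trans ?_
  have h2 : ∀ τ ∈ (Finset.univ : Finset κ), Module.finrank ℂ ((S τ).map (symF b m)) ≤
      plethMult b a m lam := fun τ _ => finrank_map_symF_le (S τ) (hS τ)
  have h3 := Finset.sum_le_card_nsmul Finset.univ _ _ h2
  rwa [Finset.card_univ, smul_eq_mul] at h3

/-- The function `P` of the permuted points is a polynomial. -/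
lemma evalP_rename {b m : ℕ} (σ : Equiv.Perm (Fin b)) (P : MvPolynomial (Fin m × Fin b) ℂ)
    (y : Fin b → Fin m → ℂ) :
    evalP b m (rename (Prod.map id σ) P) y = evalP b m P (fun j => y (σ j)) := by
  rw [evalP_apply, evalP_apply, eval_rename]
  rfl

/-- **Separation** from one nonsingular matrix of values. -/
theorem sep_of_det {b m : ℕ} (Θ : Equiv.Perm (Fin b) → Fn b m)
    (hΘ : ∀ τ, ∃ P : MvPolynomial (Fin m × Fin b) ℂ, evalP b m P = Θ τ)
    (p : Fin b → Fin m → ℂ)
    (hdet : (Matrix.of fun τ σ : Equiv.Perm (Fin b) => Θ τ (fun j => p (σ j))).det ≠ 0)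
    (f : Fn b m) (hf : ∃ P : MvPolynomial (Fin m × Fin b) ℂ, evalP b m P = f)
    (h0 : ∀ τ, symF b m (Θ τ * f) = 0) : f = 0 := by
  classical
  choose T hT using hΘ
  obtain ⟨F, hF⟩ := hf
  let D : MvPolynomial (Fin m × Fin b) ℂ :=
    (Matrix.of fun τ σ : Equiv.Perm (Fin b) => rename (Prod.map id σ) (T τ)).det
  have hD : ∀ y, evalP b m D y =
      (Matrix.of fun τ σ : Equiv.Perm (Fin b) => Θ τ (fun j => y (σ j))).det := by
    intro y
    rw [evalP_apply, RingHom.map_det]
    congr 1
    ext τ σ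
    rw [RingHom.mapMatrix_apply, Matrix.map_apply, Matrix.of_apply, Matrix.of_apply,
      ← evalP_apply, evalP_rename, hT]
  have hzero : ∀ y, evalP b m D y * f y = 0 := by
    intro y
    rw [hD]
    have h1 : (Matrix.of fun τ σ : Equiv.Perm (Fin b) => Θ τ (fun j => y (σ j))).mulVec
        (fun σ => f (fun j => y (σ j))) = 0 := by
      funext τ
      have := congrFun (h0 τ) y
      rw [symF_apply] at this
      rw [Matrix.mulVec, dotProduct]
      exact this
    have h2 := congrArg (fun v => Matrix.mulVec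
      (Matrix.of fun τ σ : Equiv.Perm (Fin b) => Θ τ (fun j => y (σ j))).adjugate v) h1
    simp only [Matrix.mulVec_mulVec, Matrix.adjugate_mul, Matrix.mulVec_zero,
      Matrix.smul_mulVec, Matrix.one_mulVec] at h2
    have h3 := congrFun h2 1
    rw [Pi.smul_apply, smul_eq_mul] at h3
    exact h3
  have hP : D * F = 0 := by
    apply MvPolynomial.funext
    intro x
    have := hzero (fun j i => x (i, j))
    rw [← hF, evalP_apply, evalP_apply] at this
    rw [map_mul, map_zero]
    exact this
  rcases mul_eq_zero.1 hP with hD0 | hF0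
  · exfalso
    apply hdet
    rw [← hD p, hD0, evalP_apply, map_zero]
  · rw [← hF, hF0, map_zero]

/-- A product of minors is a polynomial function. -/
lemma exists_evalP_prod {b m : ℕ} {C : Type*} [Fintype C] (len : C → ℕ) (hlen : ∀ c, len c ≤ m)
    (u : (c : C) → Fin (len c) → Fin b) :
    ∃ P : MvPolynomial (Fin m × Fin b) ℂ, evalP b m P = ∏ c, dt (hlen c) (u c) := by
  classical
  refine ⟨∏ c, Matrix.det (Matrix.of fun r s : Fin (len c) =>
    (X (Fin.castLE (hlen c) s, u c r) : MvPolynomial (Fin m × Fin b) ℂ)), ?_⟩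
  funext p
  rw [evalP_apply, map_prod, Finset.prod_apply]
  apply Finset.prod_congr rfl
  intro c _
  rw [RingHom.map_det, dt]
  congr 1
  ext r s
  rw [RingHom.mapMatrix_apply, Matrix.map_apply, Matrix.of_apply, Matrix.of_apply, eval_X]

lemma exists_evalP_of_span {b m : ℕ} {ι : Type*} (h : ι → Fn b m)
    (hh : ∀ β, ∃ P : MvPolynomial (Fin m × Fin b) ℂ, evalP b m P = h β) (f : Fn b m)
    (hf : f ∈ Submodule.span ℂ (Set.range h)) :
    ∃ P : MvPolynomial (Fin m × Fin b) ℂ, evalP b m P = f := by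
  have : Submodule.span ℂ (Set.range h) ≤ LinearMap.range (evalP b m) := by
    rw [Submodule.span_le]
    rintro _ ⟨β, rfl⟩
    exact hh β
  exact this hf

lemma dt_perm {b m i : ℕ} (him : i ≤ m) (e : Fin i → Fin b) (p : Fin b → Fin m → ℂ)
    (σ : Equiv.Perm (Fin b)) : dt him e (fun j => p (σ j)) = dt him (fun s => σ (e s)) p := rfl

/-- **Orbit inequality for products of minors.** `K τ` is a family of columns with content `e`
such that the product of the minors `K τ` at the configuration `p ∘ σ` is non-zero exactly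
if `σ = τ`. -/
theorem orbit_prod {b a m : ℕ} {lam : Fin m → ℕ} {M C ι : Type} [Fintype M] [Fintype C]
    [Fintype ι] (lenM : M → ℕ) (hlenM : ∀ c, lenM c ≤ m) (len : C → ℕ) (hlen : ∀ c, len c ≤ m)
    (hlam : ∀ i : Fin m, (Finset.univ.filter fun c => (i : ℕ) < lenM c).card +
      (Finset.univ.filter fun c => (i : ℕ) < len c).card = lam i)
    (K : Equiv.Perm (Fin b) → (c : M) → Fin (lenM c) → Fin b)
    (J : ι → (c : C) → Fin (len c) → Fin b)
    (hdeg : ∀ τ β j, ∑ c, (Finset.univ.filter fun i => K τ c i = j).card +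
      ∑ c, (Finset.univ.filter fun i => J β c i = j).card = a)
    (p : Fin b → Fin m → ℂ)
    (hdet : (Matrix.of fun τ σ : Equiv.Perm (Fin b) =>
      ∏ c, dt (hlenM c) (fun s => σ (K τ c s)) p).det ≠ 0)
    (hli : LinearIndependent ℂ (fun (β : ι) (z : Fin b → Fin m → ℂ) =>
      (∏ c, dt (hlen c) (J β c)) z)) :
    Fintype.card ι ≤ b.factorial * plethMult b a m lam := by
  classical
  have hcard : Fintype.card (Equiv.Perm (Fin b)) = b.factorial := by
    rw [Fintype.card_perm, Fintype.card_fin]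
  rw [← hcard]
  have hprod : ∀ τ β, (∏ c, dt (hlenM c) (K τ c)) * (∏ c, dt (hlen c) (J β c)) =
      ∏ c : M ⊕ C, dt (B := b) (Sum.rec (motive := fun c => Sum.elim lenM len c ≤ m) hlenM hlen c)
        (Sum.rec (motive := fun c => Fin (Sum.elim lenM len c) → Fin b) (K τ) (J β) c) := by
    intro τ β
    rw [Fintype.prod_sum_type]
    rfl
  refine orbit_le (b := b) (a := a) (m := m) (lam := lam)
    (fun τ => ∏ c, dt (hlenM c) (K τ c)) (fun β => ∏ c, dt (hlen c) (J β c)) ?_ ?_ hli ?_
  · intro τ β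
    change (∏ c, dt (hlenM c) (K τ c)) * (∏ c, dt (hlen c) (J β c)) ∈ _
    rw [hprod]
    refine H498.prod_dt_MP (Sum.elim lenM len) _ _ ?_
    intro j
    rw [Fintype.sum_sum_type, ← hdeg τ β j]
    congr 1
  · intro τ β
    change HWF b m lam ((∏ c, dt (hlenM c) (K τ c)) * (∏ c, dt (hlen c) (J β c)))
    rw [hprod]
    refine H498.prod_dt_HWF (Sum.elim lenM len) _ _ lam ?_
    intro i
    rw [← hlam i, Finset.card_filter, Fintype.sum_sum_type, Finset.card_filter,
      Finset.card_filter]
    rfl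
  · intro f hf h0
    refine sep_of_det _ (fun τ => exists_evalP_prod lenM hlenM (K τ)) p ?_ f
      (exists_evalP_of_span _ (fun β => exists_evalP_prod len hlen (J β)) f hf) h0
    have e : (Matrix.of fun τ σ : Equiv.Perm (Fin b) =>
        (∏ c, dt (hlenM c) (K τ c)) (fun j => p (σ j))) =
        Matrix.of fun τ σ : Equiv.Perm (Fin b) =>
          ∏ c, dt (hlenM c) (fun s => σ (K τ c s)) p := by
      ext τ σ
      rw [Matrix.of_apply, Matrix.of_apply, Finset.prod_apply]
      exact Finset.prod_congr rfl fun c _ => dt_perm _ _ _ _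
    rw [e]
    exact hdet

/-- **Orbit inequality, `gt` form.** -/
theorem orbit_gt {a b : ℕ} {lam η : Fin a → ℕ} (hη : Antitone η) {M : Type} [Fintype M]
    (lenM : M → ℕ) (hlenM : ∀ c, lenM c ≤ a)
    (hlam : ∀ i : Fin a, (Finset.univ.filter fun c => (i : ℕ) < lenM c).card + η i = lam i)
    (d : Fin b → ℕ) (hbal : ∀ i j, d i ≤ d j + 1) (hs : ∑ q, d q = ∑ i, η i)
    (K : Equiv.Perm (Fin b) → (c : M) → Fin (lenM c) → Fin b)
    (hdeg : ∀ τ j, ∑ c, (Finset.univ.filter fun i => K τ c i = j).card + d j = a)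
    (p : Fin b → Fin a → ℂ)
    (hdiag : ∀ τ σ : Equiv.Perm (Fin b),
      (∏ c, dt (hlenM c) (fun s => σ (K τ c s)) p ≠ 0 ↔ σ = τ)) :
    gt a b η ≤ ((∑ i, η i) + b - 1).choose (b - 1) * (b.factorial * plethMult b a a lam) := by
  classical
  refine gt_le_of_family η hη d hbal hs ?_
  intro C ι _ _ len hlen hcol J hJ hli
  refine orbit_prod lenM hlenM len hlen ?_ K J ?_ p ?_ hli
  · intro i
    rw [hcol i, hlam i]
  · intro τ β j
    rw [← hdeg τ j, ← hJ β j]
  · have e : (Matrix.of fun τ σ : Equiv.Perm (Fin b) =>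
        ∏ c, dt (hlenM c) (fun s => σ (K τ c s)) p) =
        Matrix.diagonal (fun τ : Equiv.Perm (Fin b) =>
          ∏ c, dt (hlenM c) (fun s => τ (K τ c s)) p) := by
      ext τ σ
      rw [Matrix.of_apply]
      by_cases h : σ = τ
      · subst h
        rw [Matrix.diagonal_apply_eq]
      · rw [Matrix.diagonal_apply_ne _ (fun h' => h h'.symm)]
        by_contra h1
        exact h ((hdiag τ σ).1 h1)
    rw [e, Matrix.det_diagonal]
    exact Finset.prod_ne_zero_iff.2 fun τ _ => (hdiag τ τ).2 rfl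

end Vale.Agent.P181.H261
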