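import Vale.Agent.P181.H261.Mat5
import Vale.Agent.P181.S6.SpecG

/-!
# P181, S6: the glue of the star design with the orbit inequality, degree `k`, `n` rows
-/

set_option autoImplicit false

namespace Vale.Agent.P181.H261

open Finset MvPolynomial
open Vale.Agent.P181 Vale.Agent.P181.H280 Vale.Agent.P181.FR Vale.Agent.P181.H188W
open Vale.Agent.P181.T4 Vale.Agent.P181.H463 Vale.Agent.P181.H59

/-- **Orbit inequality, `gt` form**, degree `k`, `n` rows. -/
theorem orbit_gtK {n k b : ℕ} {lam η : Fin n → ℕ} (hη : Antitone η) {M : Type} [Fintype M]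
    (lenM : M → ℕ) (hlenM : ∀ c, lenM c ≤ n)
    (hlam : ∀ i : Fin n, (Finset.univ.filter fun c => (i : ℕ) < lenM c).card + η i = lam i)
    (d : Fin b → ℕ) (hbal : ∀ i j, d i ≤ d j + 1) (hs : ∑ q, d q = ∑ i, η i)
    (K : Equiv.Perm (Fin b) → (c : M) → Fin (lenM c) → Fin b)
    (hdeg : ∀ τ j, ∑ c, (Finset.univ.filter fun i => K τ c i = j).card + d j = k)
    (p : Fin b → Fin n → ℂ)
    (hdiag : ∀ τ σ : Equiv.Perm (Fin b),
      (∏ c, dt (hlenM c) (fun s => σ (K τ c s)) p ≠ 0 ↔ σ = τ)) :
    gt n b η ≤ ((∑ i, η i) + b - 1).choose (b - 1) * (b.factorial * plethMult b k n lam) := by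
  classical
  refine gt_le_of_family η hη d hbal hs ?_
  intro C ι _ _ len hlen hcol J hJ hli
  refine orbit_prod lenM hlenM len hlen ?_ K J ?_ p ?_ hli
  · intro i
    rw [hcol i, hlam i]
  · intro τ β j
    rw [← hdeg τ j, ← hJ β j]
  · have e : (Matrix.of fun τ σ : Equiv.Perm (Fin b) =>
        ∏ c, dt (hlenM c) (fun s => σ (K τ c s)) p) =
        Matrix.diagonal (fun τ : Equiv.Perm (Fin b) =>
          ∏ c, dt (hlenM c) (fun s => τ (K τ c s)) p) := by
      ext τ σ
      rw [Matrix.of_apply]
      by_cases h : σ = τ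
      · subst h
        rw [Matrix.diagonal_apply_eq]
      · rw [Matrix.diagonal_apply_ne _ (fun h' => h h'.symm)]
        by_contra h1
        exact h ((hdiag τ σ).1 h1)
    rw [e, Matrix.det_diagonal]
    exact Finset.prod_ne_zero_iff.2 fun τ _ => (hdiag τ τ).2 rfl

open Mat5

/-- **[S6-MATG]** -/
theorem mat_g : S6.MatG := by
  classical
  intro n k b R N len lam η hb hD hlen hη hcol hsum
  obtain ⟨st, hst⟩ := hD
  obtain ⟨d, hd, hds⟩ := exists_balanced b (∑ i, η i) hb
  -- sizes
  have hlenC : ∀ c, (univ.filter fun i : Fin n => (i : ℕ) < len c).card = len c := by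
    intro c
    rw [Fin.card_filter_val_lt, min_eq_right (hlen c).2]
  have hsum2 : ∑ c, len c + ∑ i, η i = k * b := by
    rw [← hsum]
    have h1 : ∑ i, lam i = ∑ i : Fin n, ((univ.filter fun c => (i : ℕ) < len c).card + η i) :=
      sum_congr rfl fun i _ => (hcol i).symm
    rw [h1, sum_add_distrib]
    congr 1
    calc ∑ c, len c = ∑ c, (univ.filter fun i : Fin n => (i : ℕ) < len c).card :=
          sum_congr rfl fun c _ => (hlenC c).symm
      _ = ∑ i : Fin n, (univ.filter fun c => (i : ℕ) < len c).card := by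
          simp only [card_filter]
          exact sum_comm
  have hda : ∀ p, d p ≤ k := by
    intro p
    by_contra h
    push Not at h
    have h1 : ∀ q, k ≤ d q := fun q => by have := hd p q; omega
    have h2 : ∑ q : Fin b, k < ∑ q, d q :=
      sum_lt_sum (fun q _ => h1 q) ⟨p, mem_univ p, h⟩
    rw [sum_const, card_univ, Fintype.card_fin, smul_eq_mul, hds, mul_comm] at h2
    omega
  -- the degree functions
  have hgd1 : ∀ τ : Equiv.Perm (Fin b), ∀ p q, k - d (τ.symm p) ≤ k - d (τ.symm q) + 1 := by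
    intro τ p q
    have h1 := hd (τ.symm q) (τ.symm p)
    have h2 := hda (τ.symm p)
    have h3 := hda (τ.symm q)
    omega
  have hgd2 : ∀ τ : Equiv.Perm (Fin b), ∑ p, (k - d (τ.symm p)) = ∑ c, len c := by
    intro τ
    have h1 : ∑ p, (k - d (τ.symm p)) = ∑ p, (k - d p) :=
      Equiv.sum_comp τ.symm fun p => k - d p
    have h2 : ∑ p, (k - d p) + ∑ p, d p = k * b := by
      rw [← sum_add_distrib]
      have h3 : ∀ p : Fin b, k - d p + d p = k := fun p => Nat.sub_add_cancel (hda p)
      rw [sum_congr rfl fun p _ => h3 p, sum_const, card_univ, Fintype.card_fin, smul_eq_mul,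
        mul_comm]
    rw [h1]
    omega
  have hex : ∀ τ : Equiv.Perm (Fin b), ∃ A : Fin N → Finset (Fin b), (∀ c, (A c).card = len c) ∧
      (∀ p, dgr A p = k - d (τ.symm p)) ∧ (∀ c, HasSDR st (A c)) ∧
      ∀ ρ : Equiv.Perm (Fin b), ρ ≠ 1 → ∃ c i, Disjoint ((A c).image ρ) (st i) := fun τ =>
    hst (fun p => k - d (τ.symm p)) (hgd1 τ) (hgd2 τ)
  choose A hA1 hA2 hA3 hA4 using hex
  let u : Equiv.Perm (Fin b) → (c : Fin N) → Fin (len c) → Fin b := fun τ c =>
    (A τ c).orderEmbOfFin (hA1 τ c)
  have hu : ∀ τ c, Function.Injective (u τ c) := fun τ c =>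
    ((A τ c).orderEmbOfFin (hA1 τ c)).injective
  have huA : ∀ τ c s, u τ c s ∈ A τ c := fun τ c s => orderEmbOfFin_mem _ _ s
  -- the common point
  obtain ⟨t, ht⟩ := exists_common
    (fun x : Equiv.Perm (Fin b) × Fin N => minorP st (hlen x.2).2 (u x.1 x.2))
    (fun x => minorP_ne st (hlen x.2).2 (hlen x.2).1 (A x.1 x.2) (hA1 x.1 x.2) _ (hu _ _)
      (huA _ _) (hA3 x.1 x.2))
  refine orbit_gtK hη len (fun c => (hlen c).2) hcol d hd hds
    (fun τ c s => τ.symm (u τ c s)) ?_ (mask st t) ?_
  · intro τ j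
    have h1 : ∀ c, (univ.filter fun i => τ.symm (u τ c i) = j).card =
        if τ j ∈ A τ c then 1 else 0 := by
      intro c
      have hset : (univ.filter fun i => τ.symm (u τ c i) = j) =
          univ.filter fun i => u τ c i = τ j := by
        ext i
        simp only [mem_filter, mem_univ, true_and]
        rw [Equiv.symm_apply_eq]
      rw [hset]
      split_ifs with h
      · have hr : τ j ∈ Set.range ((A τ c).orderEmbOfFin (hA1 τ c)) := by
          rw [range_orderEmbOfFin]
          exact h
        obtain ⟨i0, hi0⟩ := hr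
        rw [card_eq_one]
        refine ⟨i0, ?_⟩
        ext i
        simp only [mem_filter, mem_univ, true_and, mem_singleton]
        constructor
        · intro hi
          exact hu τ c (hi.trans hi0.symm)
        · intro hi
          rw [hi]
          exact hi0
      · rw [card_eq_zero, filter_eq_empty_iff]
        intro i _ hi
        exact h (hi ▸ huA τ c i)
    rw [sum_congr rfl fun c _ => h1 c, ← card_filter]
    have h2 := hA2 τ (τ j)
    rw [dgr, Equiv.symm_apply_apply] at h2
    rw [h2]
    exact Nat.sub_add_cancel (hda j)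
  · intro τ σ
    constructor
    · intro h
      by_contra hne
      obtain ⟨c, i, hdis⟩ := hA4 τ (σ * τ⁻¹) (fun h' => hne (by
        rw [mul_inv_eq_one] at h'
        exact h'))
      apply h
      refine prod_eq_zero (mem_univ c) ?_
      refine dt_mask_zero st t (hlen c).2 (hlen c).1 _ i fun r hr => ?_
      refine (Finset.disjoint_left.1 hdis) ?_ hr
      rw [mem_image]
      exact ⟨u τ c r, huA τ c r, rfl⟩
    · intro h
      subst h
      rw [prod_ne_zero_iff]
      intro c _
      have h1 := ht (σ, c)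
      rw [eval_minorP] at h1
      have h2 : (fun s => σ (σ.symm (u σ c s))) = u σ c := by
        funext s
        rw [Equiv.apply_symm_apply]
      rw [h2]
      exact h1

end Vale.Agent.P181.H261
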