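import Vale.Agent.P181.H463.LowGlue

set_option autoImplicit false
set_option linter.unusedSectionVars false

/-!
Balanced contents with some letters of smaller content: `gt n N` is bounded with the help of
families of products of minors on `Q ≥ N` letters whose content is balanced on the first `N`
letters and not larger on the others.
-/

open MvPolynomial

namespace Vale.Agent.P181.H261

open Vale.Agent.P181.H463 Vale.Agent.P181.H188W

section

variable {K : Type*} [Field K] [CharZero K] {ρ σ : Type*} [Fintype ρ] [DecidableEq ρ]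
  [DecidableEq σ] [Fintype σ]

/-- The dimension grows if the content gets more balanced; the letters outside `P` only grow. -/
theorem le_balanced' {H : (σ → ℕ) → Submodule K (MvPolynomial (ρ × σ) K)} (hH : Stable H)
    {β : σ → ℕ} (P : σ → Prop) (hβ : ∀ i j, P j → β i ≤ β j + 1) (d : σ → ℕ)
    (hP : ∀ w, ¬ P w → d w ≤ β w) (hd : ∑ j, d j = ∑ j, β j) :
    Module.finrank K (H d) ≤ Module.finrank K (H β) := by
  obtain ⟨k, hk⟩ : ∃ k, ∑ j, (d j - β j) = k := ⟨_, rfl⟩
  induction k generalizing d with
  | zero =>
    have h1 : ∀ j, d j ≤ β j := by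
      intro j
      have := (Finset.sum_eq_zero_iff.mp hk) j (Finset.mem_univ j)
      omega
    have h2 : d = β := by
      funext j
      by_contra hne
      have hlt : d j < β j := lt_of_le_of_ne (h1 j) hne
      have : ∑ j, d j < ∑ j, β j :=
        Finset.sum_lt_sum (fun i _ => h1 i) ⟨j, Finset.mem_univ j, hlt⟩
      omega
    rw [h2]
  | succ k ih =>
    obtain ⟨j, hj⟩ : ∃ j, β j < d j := by
      by_contra hno
      push Not at hno
      have : ∑ j, (d j - β j) = 0 :=
        Finset.sum_eq_zero fun j _ => Nat.sub_eq_zero_of_le (hno j)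
      omega
    obtain ⟨i, hi⟩ : ∃ i, d i < β i := by
      by_contra hno
      push Not at hno
      have : ∑ j, β j < ∑ j, d j :=
        Finset.sum_lt_sum (fun i _ => hno i) ⟨j, Finset.mem_univ j, hj⟩
      omega
    have hPj : P j := by
      by_contra h
      have := hP j h
      omega
    have hij : i ≠ j := by
      rintro rfl
      omega
    set c : σ → ℕ := fun s => if s = j then d j - 1 else d s with hc
    have hdc : d = c + Pi.single j 1 := by
      funext s
      by_cases hs : s = j
      · subst hs
        simp only [hc, Pi.add_apply, Pi.single_eq_same, if_true]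
        omega
      · simp only [hc, Pi.add_apply, Pi.single_eq_of_ne hs, if_neg hs, add_zero]
    have hci : c i = d i := by simp only [hc, if_neg hij]
    have hcj : c j = d j - 1 := by simp only [hc, if_true]
    have h3 := hβ i j hPj
    have hle : c i ≤ c j := by omega
    have hstep := hH.step c hij hle
    rw [← hdc] at hstep
    refine hstep.trans (ih (c + Pi.single i 1) ?_ ?_ ?_)
    · intro w hw
      have hwj : w ≠ j := fun h => hw (h ▸ hPj)
      by_cases hwi : w = i
      · subst hwi
        simp only [Pi.add_apply, Pi.single_eq_same, hci]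
        omega
      · simp only [hc, Pi.add_apply, Pi.single_eq_of_ne hwi, if_neg hwj, add_zero]
        exact hP w hw
    · rw [← hd]
      conv_rhs => rw [hdc]
      simp only [Pi.add_apply, Finset.sum_add_distrib, Finset.sum_pi_single', Finset.mem_univ,
        if_true]
    · have e : ∀ s, (c + Pi.single i 1 : σ → ℕ) s - β s + (if s = j then 1 else 0) =
          d s - β s := by
        intro s
        by_cases hs : s = j
        · subst hs
          simp only [Pi.add_apply, Pi.single_eq_of_ne hij.symm, add_zero, if_true, hcj]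
          omega
        · by_cases hsi : s = i
          · subst hsi
            simp only [Pi.add_apply, Pi.single_eq_same, if_neg hs, add_zero, hci]
            omega
          · simp only [Pi.add_apply, Pi.single_eq_of_ne hsi, if_neg hs, add_zero, hc]
      have h4 := Finset.sum_congr rfl (fun s (_ : s ∈ (Finset.univ : Finset σ)) => e s)
      rw [Finset.sum_add_distrib, Finset.sum_ite_eq' Finset.univ j, if_pos (Finset.mem_univ j),
        hk] at h4
      omega

end

section

variable {K : Type*} [Field K] {C : Type*} [Fintype C] {n : ℕ} {ℓ : C → ℕ}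

theorem prodM_castLE {N Q : ℕ} (hNQ : N ≤ Q) (hℓ : ∀ c, ℓ c ≤ n)
    (T : (c : C) → Fin (ℓ c) → Fin N) :
    prodM K hℓ (fun c s => Fin.castLE hNQ (T c s)) =
      rename (Prod.map id (Fin.castLE hNQ)) (prodM K hℓ T) := by
  rw [prodM, prodM, map_prod]
  refine Finset.prod_congr rfl fun c _ => ?_
  rw [mnr, mnr, AlgHom.map_det]
  congr 1
  ext r s
  simp [AlgHom.mapMatrix_apply]

/-- Many linearly independent products of minors with a content which is balanced on the first
`N` letters. -/
theorem exists_products' [CharZero K] [DecidableEq C] (hℓ : ∀ c, ℓ c ≤ n) (N Q : ℕ) (hNQ : N ≤ Q)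
    (β : Fin Q → ℕ) (hβ : ∀ i j : Fin Q, (j : ℕ) < N → β i ≤ β j + 1)
    (hsum : ∑ j, β j = ∑ c, ℓ c) :
    ∃ (κ : Type) (_ : Fintype κ) (T : κ → (c : C) → Fin (ℓ c) → Fin Q),
      (∀ k, cnt (T k) = β) ∧ LinearIndependent K (fun k => prodM K hℓ (T k)) ∧
      gt n N (rows n ℓ) ≤ (N + (∑ c, ℓ c) - 1).choose (∑ c, ℓ c) * Fintype.card κ := by
  classical
  obtain ⟨κ₀, hκ₀, T₀, hcard, hli⟩ := exists_li (K := K) hℓ N
  have hst := stable_spanM (K := K) (σ := Fin Q) hℓ
  let T₁ : κ₀ → (c : C) → Fin (ℓ c) → Fin Q := fun k c s => Fin.castLE hNQ (T₀ k c s)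
  have hli1 : LinearIndependent K (fun k => prodM K hℓ (T₁ k)) := by
    have h1 : (fun k => prodM K hℓ (T₁ k)) =
        (rename (R := K) (Prod.map id (Fin.castLE hNQ) : Fin n × Fin N → Fin n × Fin Q)
          ).toLinearMap ∘ fun k => prodM K hℓ (T₀ k) := by
      funext k
      exact prodM_castLE hNQ hℓ (T₀ k)
    rw [h1]
    refine hli.map' _ (LinearMap.ker_eq_bot.2 ?_)
    exact rename_injective _ (Function.Injective.prodMap Function.injective_id
      (Fin.castLE_injective hNQ))
  let exd : (Fin N → ℕ) → Fin Q → ℕ := fun d v => if h : (v : ℕ) < N then d ⟨v, h⟩ else 0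
  have hcnt : ∀ k, cnt (T₁ k) = exd (cnt (T₀ k)) := by
    intro k
    funext v
    by_cases h : (v : ℕ) < N
    · simp only [exd, dif_pos h, cnt, cw, T₁]
      refine Finset.sum_congr rfl fun c _ => Finset.sum_congr rfl fun s _ => ?_
      refine if_congr ?_ rfl rfl
      rw [Fin.ext_iff, Fin.ext_iff, Fin.val_castLE]
    · simp only [exd, dif_neg h, cnt, cw, T₁]
      refine Finset.sum_eq_zero fun c _ => Finset.sum_eq_zero fun s _ => ?_
      rw [if_neg]
      rw [Fin.ext_iff, Fin.val_castLE]
      have := (T₀ k c s).2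
      omega
  have hexd : ∀ d : Fin N → ℕ, ∑ v, exd d v = ∑ v, d v := by
    intro d
    symm
    apply Fintype.sum_of_injective (Fin.castLE hNQ) (Fin.castLE_injective hNQ)
    · intro v hv
      have : ¬ (v : ℕ) < N := fun h => hv ⟨⟨v, h⟩, Fin.ext rfl⟩
      simp only [exd, dif_neg this]
    · intro v
      simp only [exd, Fin.val_castLE, dif_pos v.2]
  have h1 : Fintype.card κ₀ ≤
      ((Finset.univ : Finset (Fin N)).piAntidiag (∑ c, ℓ c)).card *
        Module.finrank K (spanM K hℓ β) := by
    have h1 : Fintype.card κ₀ = ∑ d ∈ (Finset.univ : Finset (Fin N)).piAntidiag (∑ c, ℓ c),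
        ((Finset.univ : Finset κ₀).filter (fun k => cnt (T₀ k) = d)).card := by
      rw [← Finset.card_univ]
      refine Finset.card_eq_sum_card_fiberwise fun k _ => ?_
      exact Finset.mem_coe.2 (Finset.mem_piAntidiag.2 ⟨sum_cnt (T₀ k), fun i _ =>
        Finset.mem_univ i⟩)
    rw [h1, ← smul_eq_mul, ← Finset.sum_const]
    refine Finset.sum_le_sum fun d hd => ?_
    have hds : ∑ j, d j = ∑ c, ℓ c := (Finset.mem_piAntidiag.mp hd).1
    refine le_trans ?_ (le_balanced' hst (fun v : Fin Q => (v : ℕ) < N) hβ (exd d) ?_ ?_)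
    · have := hst.fin (exd d)
      have h2 : LinearIndependent K
          (fun k : {k // cnt (T₀ k) = d} => (⟨prodM K hℓ (T₁ k),
            Submodule.subset_span ⟨T₁ k, by rw [hcnt, k.2], rfl⟩⟩ : spanM K hℓ (exd d))) := by
        rw [← LinearMap.linearIndependent_iff (spanM K hℓ (exd d)).subtype
          (Submodule.ker_subtype _)]
        exact hli1.comp (fun k : {k // cnt (T₀ k) = d} => (k : κ₀)) Subtype.val_injective
      have h3 := h2.fintype_card_le_finrank
      rwa [Fintype.card_subtype] at h3
    · intro w hw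
      simp only [exd, dif_neg hw]
      exact Nat.zero_le _
    · rw [hexd, hds, hsum]
  obtain ⟨b, hbs, hspan, hbli⟩ := exists_linearIndependent K (prodSet K hℓ β)
  have hbfin : b.Finite := (prodSet_finite (K := K) hℓ β).subset hbs
  have := hbfin.fintype
  have hcardb : Fintype.card b = Module.finrank K (spanM K hℓ β) := by
    rw [spanM, ← hspan, finrank_span_set_eq_card hbli, Set.toFinset_card]
  have h2 : ∀ x : b, ∃ T : (c : C) → Fin (ℓ c) → Fin Q, cnt T = β ∧
      (x : MvPolynomial (Fin n × Fin Q) K) = prodM K hℓ T := fun x => hbs x.2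
  choose T hT hx using h2
  let e := (Fintype.equivFin b).symm
  refine ⟨Fin (Fintype.card b), inferInstance, fun k => T (e k), fun k => hT _, ?_, ?_⟩
  · have h3 : (fun k => prodM K hℓ (T (e k))) =
        (fun x : b => (x : MvPolynomial (Fin n × Fin Q) K)) ∘ e := by
      funext k
      exact (hx _).symm
    rw [h3]
    exact hbli.comp e e.injective
  · rw [Fintype.card_fin, hcardb, ← hcard]
    refine h1.trans (le_of_eq ?_)
    rw [card_piAntidiag_univ, Fintype.card_fin]

end

/-- `gt_le_of_family` with additional letters of small content. -/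
theorem gt_le_of_family' {n N Q P : ℕ} (hNQ : N ≤ Q) (η : Fin n → ℕ) (hη : Antitone η)
    (d : Fin Q → ℕ) (hN : N = 0 → ∑ i, η i = 0)
    (hd : ∀ i j : Fin Q, (j : ℕ) < N → d i ≤ d j + 1) (hs : ∑ q, d q = ∑ i, η i)
    (H : ∀ (C ι : Type) (_ : Fintype C) (_ : Fintype ι) (len : C → ℕ) (hlen : ∀ c, len c ≤ n),
      (∀ i : Fin n, (Finset.univ.filter fun c => (i : ℕ) < len c).card = η i) →
      ∀ J : ι → (c : C) → Fin (len c) → Fin Q,
      (∀ β q, ∑ c, (Finset.univ.filter fun s => J β c s = q).card = d q) →
      LinearIndependent ℂ (fun (β : ι) (z : Fin Q → Fin n → ℂ) =>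
        (∏ c, dt (hlen c) (J β c)) z) → Fintype.card ι ≤ P) :
    gt n N η ≤ ((∑ i, η i) + N - 1).choose (N - 1) * P := by
  classical
  have hle : ∀ i, η i ≤ ∑ i, η i := fun i =>
    Finset.single_le_sum (fun i _ => Nat.zero_le (η i)) (Finset.mem_univ i)
  have hlen : ∀ c, collen η (∑ i, η i) c ≤ n := collen_le η _
  have hrows : rows n (collen η (∑ i, η i)) = η := rows_collen hη hle
  have hsum : ∑ c, collen η (∑ i, η i) c = ∑ i, η i := by
    rw [← sum_rows n _ hlen, hrows]
  obtain ⟨κ, hκ, T, hT, hli, hgt⟩ := exists_products' (K := ℂ) hlen N Q hNQ d hd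
    (by rw [hs, hsum])
  rw [hrows, hsum, choose_form _ _ hN] at hgt
  refine hgt.trans (Nat.mul_le_mul_left _ ?_)
  refine H (Fin (∑ i, η i)) κ inferInstance hκ (collen η (∑ i, η i)) hlen
    (fun i => congrFun hrows i) T ?_ ?_
  · intro β q
    rw [← hT β]
    unfold cnt cw
    refine Finset.sum_congr rfl fun c _ => ?_
    rw [Finset.card_filter]
  · let φ : MvPolynomial (Fin n × Fin Q) ℂ →ₗ[ℂ] ((Fin Q → Fin n → ℂ) → ℂ) :=
      { toFun := fun f p => eval (fun v : Fin n × Fin Q => p v.2 v.1) f
        map_add' := fun f g => by funext p; exact map_add _ f g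
        map_smul' := fun c f => by
          funext p
          rw [smul_eq_C_mul, map_mul, eval_C]; rfl }
    have hφ : LinearMap.ker φ = ⊥ := by
      rw [LinearMap.ker_eq_bot']
      intro f hf
      refine MvPolynomial.funext fun x => ?_
      have := congrFun hf (fun j i => x (i, j))
      exact this
    have h4 := (LinearMap.linearIndependent_iff φ hφ).mpr hli
    have h5 : (fun (β : κ) (z : Fin Q → Fin n → ℂ) => (∏ c, dt (hlen c) (T β c)) z) =
        φ ∘ (fun k => prodM ℂ hlen (T k)) := by
      funext k p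
      show _ = eval (fun v : Fin n × Fin Q => p v.2 v.1) (prodM ℂ hlen (T k))
      rw [prodM, map_prod, Finset.prod_apply]
      exact Finset.prod_congr rfl fun c _ => (eval_mnr (hlen c) (T k c) p).symm
    rw [h5]
    exact h4

end Vale.Agent.P181.H261
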