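import Vale.Agent.P181.H261.Main8
import Vale.Agent.P181.H355.Rigid
import Vale.Agent.P181.H654.Fill
import Vale.Agent.P181.H654.Cover
import Vale.Agent.P181.H921.Num8

set_option autoImplicit false

/-!
P181, S8: Foulkes' inequality for `(2 + ε) a ≤ b` and all shapes with a short first row.
-/

open Finset

namespace Vale.Agent.P181.H261

open Vale.Agent.P181 Vale.Agent.P181.H280 Vale.Agent.P181.FR Vale.Agent.P181.H188W
open Vale.Agent.P181.T4 Vale.Agent.P181.H463

/-- The number of letters in a cell. -/
lemma card_cell {b : ℕ} (v : ℕ) (hv : v < (b + 1) / 2) :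
    (univ.filter fun k : Fin b => (k : ℕ) / 2 = v).card = if v < b / 2 then 2 else 1 := by
  have h1 : (univ.filter fun k : Fin b => (k : ℕ) / 2 = v).card =
      ((range b).filter fun k => k / 2 = v).card := by
    rw [card_filter, card_filter, Finset.sum_range]
  rw [h1]
  split_ifs with h
  · have h2 : (range b).filter (fun k => k / 2 = v) = {2 * v, 2 * v + 1} := by
      ext k
      rw [mem_filter, mem_range, mem_insert, mem_singleton]
      omega
    rw [h2, card_pair (by omega)]
  · have h2 : (range b).filter (fun k => k / 2 = v) = {2 * v} := by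
      ext k
      rw [mem_filter, mem_range, mem_singleton]
      omega
    rw [h2, card_singleton]

/-- A surviving permutation is trivial. -/
lemma rig_of_cover {N b M : ℕ} {n : Fin M → ℕ} (X : Cols N b n)
    (hN : 6 ≤ N) (hb : 2 * N ≤ b) (hb' : b ≤ 2 * N + 1)
    (hcov : ∀ S : Finset ℕ, (∀ k ∈ S, k < b) → S.card ≤ 4 →
        (∀ D ⊆ S, D.card ≤ (D.biUnion (sup N)).card) →
        ∃ c, ∀ k ∈ S, ∃ s, (X.K c s : ℕ) = k)
    (σ : Equiv.Perm (Fin b)) (hσ : σ ≠ 1) :
    ∃ c, ∃ D : Finset (Fin (n c)), (D.biUnion fun s => sup N (σ (X.K c s))).card < D.card := by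
  classical
  have h1 := Vale.Agent.P181.H355.rigid_stmt N b hN hb hb' σ⁻¹
  have h2 : ¬ (∀ D : Finset (Fin b), D.card ≤ 4 → (D.biUnion fun k => sup N k).card < D.card →
      ∃ D' ⊆ D.map (σ⁻¹).toEmbedding, (D'.biUnion fun k => sup N k).card < D'.card) := by
    intro h
    exact hσ (inv_eq_one.1 (h1 h))
  push Not at h2
  obtain ⟨D, hD4, hDdep, hD⟩ := h2
  obtain ⟨c, hc⟩ := hcov ((D.map (σ⁻¹).toEmbedding).map Fin.valEmbedding) (by
      intro k hk
      rw [mem_map] at hk
      obtain ⟨k', _, rfl⟩ := hk
      exact k'.2) (by rw [card_map, card_map]; exact hD4) (by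
      intro D' hD'
      obtain ⟨D'', hD'', rfl⟩ := subset_map_iff.1 hD'
      have h3 := hD D'' hD''
      rw [card_map]
      refine h3.trans (le_of_eq ?_)
      congr 1
      ext v
      simp only [mem_biUnion, mem_map]
      constructor
      · rintro ⟨k, hk, hv⟩
        exact ⟨k, ⟨k, hk, rfl⟩, hv⟩
      · rintro ⟨_, ⟨k, hk, rfl⟩, hv⟩
        exact ⟨k, hk, hv⟩)
  refine ⟨c, univ.filter (fun s => σ (X.K c s) ∈ D), ?_⟩
  have h4 : D ⊆ (univ.filter (fun s => σ (X.K c s) ∈ D)).image fun s => σ (X.K c s) := by
    intro k hk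
    obtain ⟨s, hs⟩ := hc ((σ⁻¹ k : Fin b) : ℕ) (by
      rw [mem_map]
      exact ⟨σ⁻¹ k, by rw [mem_map]; exact ⟨k, hk, rfl⟩, rfl⟩)
    have h5 : σ (X.K c s) = k := by
      have h6 : X.K c s = σ⁻¹ k := Fin.ext hs
      rw [h6]
      exact σ.apply_symm_apply k
    rw [mem_image]
    exact ⟨s, by rw [mem_filter, h5]; exact ⟨mem_univ _, hk⟩, h5⟩
  have h5 : D.card ≤ (univ.filter (fun s => σ (X.K c s) ∈ D)).card :=
    (card_le_card h4).trans card_image_le
  refine lt_of_le_of_lt ?_ (hDdep.trans_le h5)
  apply card_le_card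
  intro v hv
  rw [mem_biUnion] at hv ⊢
  obtain ⟨s, hs, hv⟩ := hv
  exact ⟨σ (X.K c s), (mem_filter.1 hs).2, hv⟩

/-- **Foulkes' inequality for `(2 + ε) a ≤ b` and all shapes with
`λ_1 ≤ a ^ (5 / 6 - δ) b ^ (1 / 3)`.** -/
theorem foulkes_s8 (ε δ : ℝ) (hε : 0 < ε) (hδ : 0 < δ) :
    ∀ᶠ a : ℕ in Filter.atTop, ∀ b : ℕ, (2 + ε) * (a : ℝ) ≤ b →
      ∀ lam : Fin a → ℕ, Antitone lam → ∑ i, lam i = a * b →
      (∀ i, (lam i : ℝ) ≤ (a : ℝ) ^ (5 / 6 - δ) * (b : ℝ) ^ (1 / 3 : ℝ)) →
      plethMult a b a lam ≤ plethMult b a a lam := by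
  classical
  obtain ⟨C0, hC0⟩ := Vale.Agent.P181.H654.cover_stmt
  filter_upwards [Vale.Agent.P181.H921.num_stmt8 ε δ hε hδ C0, Filter.eventually_ge_atTop 6]
    with a hnum ha6 b hab lam hlam hsum hrow
  have ha0 : 0 < a := by omega
  set L0 : ℕ := lam ⟨0, ha0⟩ with hL0
  have hle : ∀ i, lam i ≤ L0 := fun i => hlam (Fin.mk_le_of_le_val (Nat.zero_le _))
  have hbL : b ≤ L0 := by
    have h1 : ∑ i, lam i ≤ a * L0 := by
      refine (Finset.sum_le_card_nsmul _ _ _ fun i _ => hle i).trans ?_
      rw [card_univ, Fintype.card_fin, smul_eq_mul]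
    rw [hsum] at h1
    exact Nat.le_of_mul_le_mul_left h1 ha0
  obtain ⟨l, q, M, Mc, hMc, hq, hql, hla, haN, hlM, hMcM, h4M, hroom, hexp⟩ :=
    hnum b L0 hab hbL (hrow _)
  set N : ℕ := b / 2 with hN
  set Q : ℕ := (b + 1) / 2 with hQ
  have hb : 2 * N ≤ b := by omega
  have hb' : b ≤ 2 * N + 1 := by omega
  have hNQ : N ≤ Q := by omega
  have hN6 : 6 ≤ N := by omega
  -- the cover
  obtain ⟨P, hP, sel, hPc, hsel, hinj, hcov⟩ := hC0 N b (Nat.size b) (by omega) hb hb'
    (Nat.lt_size_self b).le (Nat.size_pos.2 (by omega))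
  -- the lengths
  have hcut : ∀ c : Fin M, l ≤ collen lam M c := by
    intro c
    have hl1 : l - 1 < a := by omega
    have hM : M ≤ lam ⟨l - 1, hl1⟩ := by
      by_contra hlt
      push Not at hlt
      have h1 : ∀ i : Fin a, lam i ≤ if (i : ℕ) < l then L0 else M - 1 := by
        intro i
        split_ifs with h
        · exact hle i
        · have h2 : lam i ≤ lam ⟨l - 1, hl1⟩ := hlam (by
            rw [Fin.le_def]
            simp only
            omega)
          omega
      have h2 : ∑ i, lam i ≤ ∑ i : Fin a, if (i : ℕ) < l then L0 else M - 1 :=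
        Finset.sum_le_sum fun i _ => h1 i
      have h3 : (∑ i : Fin a, if (i : ℕ) < l then L0 else M - 1) ≤ l * L0 + a * (M - 1) := by
        have h4 : (∑ i : Fin a, if (i : ℕ) < l then L0 else M - 1) ≤
            ∑ i : Fin a, ((if (i : ℕ) < l then L0 else 0) + (M - 1)) := by
          refine Finset.sum_le_sum fun i _ => ?_
          split_ifs <;> omega
        refine h4.trans ?_
        rw [Finset.sum_add_distrib, Finset.sum_const, card_univ, Fintype.card_fin, smul_eq_mul]
        have h5 : (∑ i : Fin a, if (i : ℕ) < l then L0 else 0) = l * L0 := by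
          rw [← Finset.sum_filter, Finset.sum_const, smul_eq_mul, Fin.card_filter_val_lt,
            min_eq_right hla]
        omega
      have h6 : a * (M - 1) < M * a := by
        have hM0 : 0 < M := c.pos
        rw [mul_comm]
        exact Nat.mul_lt_mul_of_pos_right (by omega) ha0
      omega
    have h1 : ((⟨l - 1, hl1⟩ : Fin a) : ℕ) < collen lam M c :=
      (lt_collen hlam _ _).2 (c.2.trans_le hM)
    simp only at h1
    omega
  have hQq : (b + 1) / 2 / q + 1 = Q / q + 1 := rfl
  obtain ⟨X, κ, hκa, huse, huse', hcovX⟩ := exists_cols Vale.Agent.P181.H654.fill_stmt hb hb' hq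
    hql haN (by omega) h4M (collen lam M) hcut (fun c => collen_le lam M c) P sel
    (by
      rw [hMc]
      exact Nat.mul_le_mul_right _ hPc) hMcM hsel hinj hcov hroom
  have hη : Antitone (fun i => lam i - M) := fun i j h => Nat.sub_le_sub_right (hlam h) M
  have hQlt : ∀ k : Fin b, (k : ℕ) / 2 < Q := by
    intro k
    have := k.2
    omega
  let sp : Fin b → Finset (Fin Q) := fun k => univ.filter fun v => (v : ℕ) ∈ sup N k
  let cell : Fin b → Fin Q := fun k => ⟨(k : ℕ) / 2, hQlt k⟩
  have hcard : ∀ v : Fin Q, (univ.filter fun k => cell k = v).card =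
      if (v : ℕ) < N then 2 else 1 := by
    intro v
    rw [← card_cell (b := b) v v.2]
    congr 1
    ext k
    simp only [mem_filter, mem_univ, true_and, cell, Fin.ext_iff]
  have huseK : ∀ v : Fin Q, ∑ c, (univ.filter fun s => cell (X.K c s) = v).card = X.use v := by
    intro v
    unfold Cols.use
    refine Finset.sum_congr rfl fun c _ => ?_
    rw [← X.card_K c (fun k => k / 2 = (v : ℕ))]
    congr 1
    ext s
    simp only [mem_filter, mem_univ, true_and, cell, Fin.ext_iff]
  have hu1 : ∀ v : Fin Q, X.use v ≤ κ + 1 := by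
    intro v
    by_cases h : (v : ℕ) < N
    · exact (huse v h).2
    · exact (huse' v (by omega)).trans (Nat.le_succ _)
  have hu2 : ∀ v : Fin Q, X.use v ≤ a * (univ.filter fun k => cell k = v).card := by
    intro v
    rw [hcard]
    have := hu1 v
    split_ifs <;> omega
  have hgt := strat_gt (a := a) (m := a) (b := b) (Q := Q) (N := N) hNQ (lam := lam) hη
    (by omega) (collen lam M) (fun c => collen_le lam M c)
    (by
      intro i
      simp only [lt_collen hlam]
      rw [Fin.card_filter_val_lt]
      have := min_comm M (lam i)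
      omega)
    sp cell
    (by
      intro k
      simp only [sp, cell, mem_filter, mem_univ, true_and]
      exact half_mem)
    X.K X.K_inj
    (by
      intro c
      refine ⟨fun s => ⟨(X.U c).orderEmbOfFin (X.card_U c) s, ?_⟩, ?_, ?_⟩
      · have := X.lt c _ (Finset.orderEmbOfFin_mem _ (X.card_U c) s)
        omega
      · intro s s' h
        exact ((X.U c).orderEmbOfFin (X.card_U c)).injective (congrArg Fin.val h)
      · intro s
        simp only [sp, mem_filter, mem_univ, true_and]
        exact X.K_mem c s)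
    (by
      intro σ hσ
      obtain ⟨c, D, hD⟩ := rig_of_cover X hN6 hb hb' hcovX σ hσ
      refine ⟨c, D, lt_of_le_of_lt ?_ hD⟩
      rw [← card_map Fin.valEmbedding]
      apply card_le_card
      intro v hv
      rw [mem_map] at hv
      obtain ⟨v', hv', rfl⟩ := hv
      rw [mem_biUnion] at hv' ⊢
      obtain ⟨s, hs, hv'⟩ := hv'
      exact ⟨s, hs, (mem_filter.1 hv').2⟩)
    (fun v => a * (univ.filter fun k => cell k = v).card - X.use v)
    (by
      intro i j hj
      have h1 := hcard i
      have h2 := hcard j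
      have h3 := hu1 i
      have h4 := hu1 j
      simp only [h1, h2, if_pos hj]
      by_cases hi : (i : ℕ) < N
      · rw [if_pos hi]
        have h5 := (huse i hi).1
        omega
      · rw [if_neg hi]
        omega)
    (by
      have h1 : ∑ v : Fin Q, (a * (univ.filter fun k => cell k = v).card - X.use v) +
          ∑ v : Fin Q, X.use v = a * b := by
        rw [← Finset.sum_add_distrib, Finset.sum_congr rfl (fun v _ => Nat.sub_add_cancel (hu2 v)),
          ← Finset.mul_sum]
        congr 1
        have h2 := Finset.card_eq_sum_card_fiberwise (s := (univ : Finset (Fin b)))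
          (t := (univ : Finset (Fin Q))) (f := cell) (fun k _ => Finset.mem_coe.2 (mem_univ _))
        rw [card_univ, Fintype.card_fin] at h2
        exact h2.symm
      have h2 : ∑ v : Fin Q, X.use v = ∑ c, collen lam M c := by
        have h3 : ∑ v : Fin Q, X.use v =
            ∑ v : Fin Q, ∑ c, (univ.filter fun s => cell (X.K c s) = v).card :=
          Finset.sum_congr rfl fun v _ => (huseK v).symm
        rw [h3, Finset.sum_comm]
        refine Finset.sum_congr rfl fun c _ => ?_
        have h4 := Finset.card_eq_sum_card_fiberwise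
          (s := (univ : Finset (Fin (collen lam M c))))
          (t := (univ : Finset (Fin Q))) (f := fun s => cell (X.K c s))
          (fun k _ => Finset.mem_coe.2 (mem_univ _))
        rw [card_univ, Fintype.card_fin] at h4
        exact h4.symm
      have h5 : ∑ c, collen lam M c + ∑ i, (lam i - M) = a * b := by
        rw [← sum_rows a _ (fun c => collen_le lam M c), ← Finset.sum_add_distrib, ← hsum]
        refine Finset.sum_congr rfl fun i _ => ?_
        unfold rows
        simp only [lt_collen hlam]
        rw [Fin.card_filter_val_lt]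
        have := min_comm M (lam i)
        omega
      omega)
    (by
      intro v
      rw [huseK v]
      exact Nat.sub_add_cancel (hu2 v))
    (by
      intro k
      have h1 : ∑ c, (univ.filter fun s => X.K c s = k).card ≤
          ∑ c, (univ.filter fun s => cell (X.K c s) = cell k).card := by
        refine Finset.sum_le_sum fun c _ => card_le_card ?_
        intro s hs
        rw [mem_filter] at hs ⊢
        exact ⟨hs.1, by rw [hs.2]⟩
      refine h1.trans ?_
      rw [huseK]
      exact (hu1 _).trans hκa)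
  have hS : ∑ c : Fin M, collen lam M c ≤ M * a := by
    refine (Finset.sum_le_card_nsmul _ _ _ fun c _ => collen_le lam M c).trans ?_
    rw [card_univ, Fintype.card_fin, smul_eq_mul]
  have h5 : ∑ i, (lam i - M) + ∑ c : Fin M, collen lam M c = a * b := by
    rw [← sum_rows a _ (fun c => collen_le lam M c), ← Finset.sum_add_distrib, ← hsum]
    refine Finset.sum_congr rfl fun i _ => ?_
    unfold rows
    simp only [lt_collen hlam]
    rw [Fin.card_filter_val_lt]
    have := min_comm M (lam i)
    omega
  refine compare (N := N) (M := M) (L0 := L0) hlam ha0 haN hle ?_ hgt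
  exact hexp _ _ hS h5

end Vale.Agent.P181.H261
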