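import Vale.Agent.P181.H261.Sup

set_option autoImplicit false

/-!
P181, S8 in class form: the numbers.
-/

namespace Vale.Agent.P181.H261

/-- The numbers of LB8: `N = b / 2`, `n0 = λ_l`; intended `q = l / 4`, `M = C (Mc + 1) (b / l + 1)`.
Reason: `b ^ 5 a ^ δ ≤ l ^ 5 min (b, n0)` and `l ≤ a ≤ b` give `l min (b, n0) ≥ b a ^ δ`,
`M ≤ a ^ (- δ / 2) min (b, n0)`, and the logarithm of the right hand side is at least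
`c Lm min (b, n0)`. -/
def NumStmtB : Prop := ∀ (ε δ : ℝ), 0 < ε → 0 < δ → ∀ C0 : ℕ, ∀ᶠ a : ℕ in Filter.atTop,
  ∀ b l n0 : ℕ, (2 + ε) * (a : ℝ) ≤ b → l ≤ a →
    (b : ℝ) ^ 5 * (a : ℝ) ^ δ ≤ (l : ℝ) ^ 5 * ((min b n0 : ℕ) : ℝ) →
    ∃ q M Mc : ℕ, Mc = C0 * (Nat.size b) ^ 32 * (((b + 1) / 2) / q + 1) ^ 4 ∧
      1 ≤ q ∧ 4 * q ≤ l ∧ a ≤ b / 2 ∧ 1 ≤ M ∧ Mc ≤ M ∧ 100 * M ≤ b ∧ 100 * M ≤ n0 ∧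
      (b / 2) * (2 * Mc + 1) ≤ ((M - Mc) * l / (b / 2) - 2 * Mc) * (b / 2 - a) ∧
      ∀ Lm mm : ℕ, l ≤ Lm → mm ≤ a * b →
        (a : ℝ) ^ (M * Lm) * ((mm + b / 2 - 1).choose (b / 2 - 1) : ℝ) * Real.exp (2 * b) ≤
          (1 + ((n0 - M : ℕ) : ℝ) / ((b / 2 : ℕ) : ℝ)) ^ (Lm * (b / 2 - a))

end Vale.Agent.P181.H261
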