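import Vale.Agent.P181.H261.MainB
import Vale.Agent.P181.H261.MarkB
import Vale.Agent.P181.H261.Final8
import Vale.Agent.P181.H261.SupB

set_option autoImplicit false

/-!
P181, S8 in class form.
-/

open Finset

namespace Vale.Agent.P181.H261

open Vale.Agent.P181 Vale.Agent.P181.H280 Vale.Agent.P181.FR Vale.Agent.P181.H188W
open Vale.Agent.P181.T4 Vale.Agent.P181.H463

/-- **The lower bound from the numbers.** -/
theorem lower_of_nums {C0 : ℕ} (hC0 : ∀ (N b L : ℕ), 3 ≤ N → 2 * N ≤ b → b ≤ 2 * N + 1 →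
    b ≤ 2 ^ L → 1 ≤ L →
    ∃ (P : Type) (_ : Fintype P) (sel : P → ℕ → ℕ), Fintype.card P ≤ C0 * L ^ 32 ∧
      (∀ p v, 2 * v < b → sel p v < b ∧ v ∈ sup N (sel p v)) ∧
      (∀ p v v', 2 * v < b → 2 * v' < b → sel p v = sel p v' → v = v') ∧
      ∀ S : Finset ℕ, (∀ k ∈ S, k < b) → S.card ≤ 4 →
        (∀ D ⊆ S, D.card ≤ (D.biUnion (sup N)).card) →
        ∃ (p : P) (f : ℕ → ℕ), ∀ k ∈ S, 2 * f k < b ∧ sel p (f k) = k)
    {a b k n l n0 q M Mc : ℕ} (hMc : Mc = C0 * (Nat.size b) ^ 32 * (((b + 1) / 2) / q + 1) ^ 4)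
    (hq : 1 ≤ q) (hql : 4 * q ≤ l) (haN : a ≤ b / 2) (hb12 : 12 ≤ b) (hM1 : 1 ≤ M) (hMcM : Mc ≤ M)
    (hMn : 100 * M ≤ n0)
    (hroom : (b / 2) * (2 * Mc + 1) ≤ ((M - Mc) * l / (b / 2) - 2 * Mc) * (b / 2 - a))
    (hna : n ≤ a) {lam : Fin n → ℕ} (hlam : Antitone lam) (hsum : ∑ i, lam i = k * b)
    (hl : ∀ i : Fin n, (i : ℕ) < l → n0 ≤ lam i) (hln : l ≤ n) :
    gt n (b / 2) (etaB lam n0 M) ≤
      ((∑ i, etaB lam n0 M i) + b / 2 - 1).choose (b / 2 - 1) * plethMult b k n lam := by
  classical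
  set N : ℕ := b / 2 with hN
  set Q : ℕ := (b + 1) / 2 with hQ
  have hb : 2 * N ≤ b := by omega
  have hb' : b ≤ 2 * N + 1 := by omega
  have hNQ : N ≤ Q := by omega
  have hN6 : 6 ≤ N := by omega
  obtain ⟨P, hP, sel, hPc, hsel, hinj, hcov⟩ := hC0 N b (Nat.size b) (by omega) hb hb'
    (Nat.lt_size_self b).le (Nat.size_pos.2 (by omega))
  have hcut : ∀ c : Fin M, l ≤ lenB lam n0 M c := by
    intro c
    have hl1 : l - 1 < n := by omega
    have h0 := hl ⟨l - 1, hl1⟩ (by simp only; omega)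
    have h1 : ((⟨l - 1, hl1⟩ : Fin n) : ℕ) < lenB lam n0 M c := by
      rw [lt_lenB hlam]
      have := c.2
      omega
    simp only at h1
    omega
  obtain ⟨X, κ, hκN, huse, huse', hcovX⟩ := exists_colsB Vale.Agent.P181.H654.fill_stmt hb hb' hq
    hql haN (by omega) (lenB lam n0 M) hcut (fun c => (lenB_le c).trans hna) P sel
    (by
      rw [hMc]
      exact Nat.mul_le_mul_right _ hPc) hMcM hsel hinj hcov hroom
  -- the bound for `κ`
  set Lm : ℕ := lenB lam n0 M ⟨0, hM1⟩ with hLm
  have hlenLm : ∀ c : Fin M, lenB lam n0 M c ≤ Lm := by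
    intro c
    unfold lenB at hLm ⊢
    rw [hLm]
    apply card_le_card
    intro i hi
    rw [mem_filter] at hi ⊢
    simp only at hi ⊢
    exact ⟨hi.1, by omega⟩
  have hrowLm : Lm * (99 * M) ≤ k * b := by
    rw [← hsum]
    have h1 : ∀ i ∈ univ.filter (fun i : Fin n => (i : ℕ) < Lm), 99 * M ≤ lam i := by
      intro i hi
      have h2 := (lt_lenB (n0 := n0) (M := M) hlam i ⟨0, hM1⟩).1 (mem_filter.1 hi).2
      simp only at h2
      omega
    have h3 := Finset.card_nsmul_le_sum _ _ _ h1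
    rw [smul_eq_mul, Fin.card_filter_val_lt, min_eq_right (lenB_le _)] at h3
    refine h3.trans ?_
    exact Finset.sum_le_sum_of_subset (filter_subset _ _)
  have hκk : κ + 1 ≤ k := by
    have h1 : ∑ c, lenB lam n0 M c ≤ M * Lm := by
      refine (Finset.sum_le_card_nsmul _ _ _ fun c _ => hlenLm c).trans ?_
      rw [card_univ, Fintype.card_fin, smul_eq_mul]
    have h2 : κ * N ≤ M * Lm := hκN.trans h1
    have h3 : 99 * (κ * N) ≤ k * (2 * N + 1) := by
      calc 99 * (κ * N) ≤ 99 * (M * Lm) := Nat.mul_le_mul_left _ h2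
        _ = Lm * (99 * M) := by ring
        _ ≤ k * b := hrowLm
        _ ≤ k * (2 * N + 1) := Nat.mul_le_mul_left _ hb'
    have hk0 : 0 < k := by
      rcases Nat.eq_zero_or_pos k with h0 | h0
      · exfalso
        subst h0
        have hl1 : l - 1 < n := by omega
        have h4 := hl ⟨l - 1, hl1⟩ (by simp only; omega)
        have h5 := Finset.single_le_sum (f := lam) (fun i _ => Nat.zero_le _)
          (Finset.mem_univ (⟨l - 1, hl1⟩ : Fin n))
        rw [hsum, zero_mul] at h5
        omega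
      · exact h0
    by_contra hlt
    push Not at hlt
    have h4 : k ≤ κ := by omega
    have h5 : 99 * (k * N) ≤ k * (2 * N + 1) :=
      (Nat.mul_le_mul_left _ (Nat.mul_le_mul_right N h4)).trans h3
    have h6 : 99 * (k * N) = k * (99 * N) := by ring
    rw [h6] at h5
    have h7 := Nat.le_of_mul_le_mul_left h5 hk0
    omega
  have hQlt : ∀ k : Fin b, (k : ℕ) / 2 < Q := by
    intro k
    have := k.2
    omega
  let sp : Fin b → Finset (Fin Q) := fun k => univ.filter fun v => (v : ℕ) ∈ sup N k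
  let cell : Fin b → Fin Q := fun k => ⟨(k : ℕ) / 2, hQlt k⟩
  have hcard : ∀ v : Fin Q, (univ.filter fun k => cell k = v).card =
      if (v : ℕ) < N then 2 else 1 := by
    intro v
    rw [← card_cell (b := b) v v.2]
    congr 1
    ext k
    simp only [mem_filter, mem_univ, true_and, cell, Fin.ext_iff]
  have huseK : ∀ v : Fin Q, ∑ c, (univ.filter fun s => cell (X.K c s) = v).card = X.use v := by
    intro v
    unfold Cols.use
    refine Finset.sum_congr rfl fun c _ => ?_
    rw [← X.card_K c (fun k => k / 2 = (v : ℕ))]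
    congr 1
    ext s
    simp only [mem_filter, mem_univ, true_and, cell, Fin.ext_iff]
  have hu1 : ∀ v : Fin Q, X.use v ≤ κ + 1 := by
    intro v
    by_cases h : (v : ℕ) < N
    · exact (huse v h).2
    · exact (huse' v (by omega)).trans (Nat.le_succ _)
  have hu2 : ∀ v : Fin Q, X.use v ≤ k * (univ.filter fun k => cell k = v).card := by
    intro v
    rw [hcard]
    have := hu1 v
    split_ifs <;> omega
  refine strat_gt (a := k) (m := n) (b := b) (Q := Q) (N := N) hNQ (lam := lam)
    (etaB_anti hlam) (by omega) (lenB lam n0 M) (fun c => lenB_le c)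
    (fun i => etaB_add hlam i)
    sp cell
    (by
      intro k
      simp only [sp, cell, mem_filter, mem_univ, true_and]
      exact half_mem)
    X.K X.K_inj
    (by
      intro c
      refine ⟨fun s => ⟨(X.U c).orderEmbOfFin (X.card_U c) s, ?_⟩, ?_, ?_⟩
      · have := X.lt c _ (Finset.orderEmbOfFin_mem _ (X.card_U c) s)
        omega
      · intro s s' h
        exact ((X.U c).orderEmbOfFin (X.card_U c)).injective (congrArg Fin.val h)
      · intro s
        simp only [sp, mem_filter, mem_univ, true_and]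
        exact X.K_mem c s)
    (by
      intro σ hσ
      obtain ⟨c, D, hD⟩ := rig_of_cover X hN6 hb hb' hcovX σ hσ
      refine ⟨c, D, lt_of_le_of_lt ?_ hD⟩
      rw [← card_map Fin.valEmbedding]
      apply card_le_card
      intro v hv
      rw [mem_map] at hv
      obtain ⟨v', hv', rfl⟩ := hv
      rw [mem_biUnion] at hv' ⊢
      obtain ⟨s, hs, hv'⟩ := hv'
      exact ⟨s, hs, (mem_filter.1 hv').2⟩)
    (fun v => k * (univ.filter fun k => cell k = v).card - X.use v)
    (by
      intro i j hj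
      have h1 := hcard i
      have h2 := hcard j
      have h3 := hu1 i
      have h4 := hu1 j
      simp only [h1, h2, if_pos hj]
      by_cases hi : (i : ℕ) < N
      · rw [if_pos hi]
        have h5 := (huse i hi).1
        omega
      · rw [if_neg hi]
        omega)
    (by
      have h1 : ∑ v : Fin Q, (k * (univ.filter fun k => cell k = v).card - X.use v) +
          ∑ v : Fin Q, X.use v = k * b := by
        rw [← Finset.sum_add_distrib, Finset.sum_congr rfl (fun v _ => Nat.sub_add_cancel (hu2 v)),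
          ← Finset.mul_sum]
        congr 1
        have h2 := Finset.card_eq_sum_card_fiberwise (s := (univ : Finset (Fin b)))
          (t := (univ : Finset (Fin Q))) (f := cell) (fun k _ => Finset.mem_coe.2 (mem_univ _))
        rw [card_univ, Fintype.card_fin] at h2
        exact h2.symm
      have h2 : ∑ v : Fin Q, X.use v = ∑ c, lenB lam n0 M c := by
        have h3 : ∑ v : Fin Q, X.use v =
            ∑ v : Fin Q, ∑ c, (univ.filter fun s => cell (X.K c s) = v).card :=
          Finset.sum_congr rfl fun v _ => (huseK v).symm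
        rw [h3, Finset.sum_comm]
        refine Finset.sum_congr rfl fun c _ => ?_
        have h4 := Finset.card_eq_sum_card_fiberwise
          (s := (univ : Finset (Fin (lenB lam n0 M c))))
          (t := (univ : Finset (Fin Q))) (f := fun s => cell (X.K c s))
          (fun k _ => Finset.mem_coe.2 (mem_univ _))
        rw [card_univ, Fintype.card_fin] at h4
        exact h4.symm
      have h5 := sum_etaB (n0 := n0) (M := M) hlam
      omega)
    (by
      intro v
      rw [huseK v]
      exact Nat.sub_add_cancel (hu2 v))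
    (by
      intro k'
      have h1 : ∑ c, (univ.filter fun s => X.K c s = k').card ≤
          ∑ c, (univ.filter fun s => cell (X.K c s) = cell k').card := by
        refine Finset.sum_le_sum fun c _ => card_le_card ?_
        intro s hs
        rw [mem_filter] at hs ⊢
        exact ⟨hs.1, by rw [hs.2]⟩
      refine h1.trans ?_
      rw [huseK]
      exact (hu1 _).trans hκk)

/-- **LB8.** The lower bound for all shapes with enough long columns. -/
def LB8 : Prop := ∀ (ε δ : ℝ), 0 < ε → 0 < δ → ∀ᶠ a : ℕ in Filter.atTop,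
  ∀ (k b n l : ℕ) (lam : Fin n → ℕ), (2 + ε) * (a : ℝ) ≤ b → n ≤ a → k ≤ a → 1 ≤ l → l ≤ n →
    Antitone lam → ∑ i, lam i = k * b →
    (b : ℝ) ^ 5 * (a : ℝ) ^ δ ≤ (l : ℝ) ^ 5 * ((min b (ex lam (l - 1)) : ℕ) : ℝ) →
    (gt n a lam : ℝ) * Real.exp (2 * b) ≤ plethMult b k n lam

theorem lb8_of (hnum : NumStmtB) : LB8 := by
  intro ε δ hε hδ
  obtain ⟨C0, hC0⟩ := Vale.Agent.P181.H654.cover_stmt
  filter_upwards [hnum ε δ hε hδ C0, Filter.eventually_ge_atTop 6] with a hn ha6 k b n l lam hab
    hna hka hl1 hln hlam hsum hcl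
  set n0 : ℕ := ex lam (l - 1) with hn0
  obtain ⟨q, M, Mc, hMc, hq, hql, haN, hM1, hMcM, hMb, hMn, hroom, hexp⟩ :=
    hn b l n0 hab (hln.trans hna) hcl
  have hrow : ∀ i : Fin n, (i : ℕ) < l → n0 ≤ lam i := by
    intro i hi
    have h1 : ex lam (l - 1) ≤ ex lam i := ex_anti hlam (by omega)
    rw [ex_of_lt lam i.2] at h1
    exact h1
  have hlow := lower_of_nums hC0 hMc hq hql haN (by omega) hM1 hMcM hMn hroom hna hlam hsum hrow
    hln
  set Lm : ℕ := lenB lam n0 M ⟨0, hM1⟩ with hLm
  have hLl : l ≤ Lm := by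
    have hl1 : l - 1 < n := by omega
    have h1 : ((⟨l - 1, hl1⟩ : Fin n) : ℕ) < lenB lam n0 M ⟨0, hM1⟩ := by
      rw [lt_lenB hlam]
      have := hrow ⟨l - 1, hl1⟩ (by simp only; omega)
      simp only
      omega
    simp only at h1
    omega
  have hS : ∑ c, lenB lam n0 M c ≤ M * Lm := by
    have hlenLm : ∀ c : Fin M, lenB lam n0 M c ≤ Lm := by
      intro c
      unfold lenB at hLm ⊢
      rw [hLm]
      apply card_le_card
      intro i hi
      rw [mem_filter] at hi ⊢
      simp only at hi ⊢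
      exact ⟨hi.1, by omega⟩
    refine (Finset.sum_le_card_nsmul _ _ _ fun c _ => hlenLm c).trans ?_
    rw [card_univ, Fintype.card_fin, smul_eq_mul]
  have hm : ∑ i, etaB lam n0 M i ≤ a * b := by
    have h1 := sum_etaB (n0 := n0) (M := M) hlam
    have h2 : k * b ≤ a * b := Nat.mul_le_mul_right _ hka
    omega
  have hE := hexp Lm (∑ i, etaB lam n0 M i) hLl hm
  have h1 := gt_cutB (n0 := n0) (M := M) hlam a
  have h2 : gt n a lam ≤ a ^ (M * Lm) * gt n a (etaB lam n0 M) :=
    h1.trans (Nat.mul_le_mul_right _ (Nat.pow_le_pow_right (by omega) hS))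
  have h3 := Vale.Agent.P181.H539.gt_growth_rows (n := n) (a := a) (N := b / 2) (l := Lm)
    (n0 := n0 - M) hna (by omega) haN (etaB_anti (n0 := n0) (M := M) hlam) (lenB_le _)
    (by
      intro i hi
      apply le_etaB
      have := (lt_lenB hlam i _).1 hi
      simp only at this
      omega)
  set Cc : ℝ := (((∑ i, etaB lam n0 M i) + b / 2 - 1).choose (b / 2 - 1) : ℝ) with hCc
  set G : ℝ := (gt n a (etaB lam n0 M) : ℝ) with hG
  set R : ℝ := (1 + ((n0 - M : ℕ) : ℝ) / ((b / 2 : ℕ) : ℝ)) ^ (Lm * (b / 2 - a)) with hR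
  have h4 : (gt n (b / 2) (etaB lam n0 M) : ℝ) ≤ Cc * plethMult b k n lam := by
    rw [hCc]
    exact_mod_cast hlow
  have h5 : (gt n a lam : ℝ) ≤ (a : ℝ) ^ (M * Lm) * G := by
    rw [hG]
    exact_mod_cast h2
  have hG0 : 0 ≤ G := Nat.cast_nonneg _
  have hCpos : 0 < Cc := by
    rw [hCc]
    exact_mod_cast Nat.choose_pos (by omega)
  have h6 : Cc * ((gt n a lam : ℝ) * Real.exp (2 * b)) ≤ Cc * plethMult b k n lam := by
    calc Cc * ((gt n a lam : ℝ) * Real.exp (2 * b))
        ≤ Cc * (((a : ℝ) ^ (M * Lm) * G) * Real.exp (2 * b)) := by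
          refine mul_le_mul_of_nonneg_left ?_ hCpos.le
          exact mul_le_mul_of_nonneg_right h5 (Real.exp_pos _).le
      _ = G * ((a : ℝ) ^ (M * Lm) * Cc * Real.exp (2 * b)) := by ring
      _ ≤ G * R := mul_le_mul_of_nonneg_left hE hG0
      _ ≤ gt n (b / 2) (etaB lam n0 M) := h3
      _ ≤ Cc * plethMult b k n lam := h4
  exact le_of_mul_le_mul_left h6 hCpos

end Vale.Agent.P181.H261
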