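import Vale.Agent.P181.H261.Sup

set_option autoImplicit false

/-!
P181, S8: the marker columns.
-/

open Finset

namespace Vale.Agent.P181.H261

/-- The columns of the design: the set of cells and the selection of a letter in every cell. -/
structure Cols (N b : ℕ) {M : ℕ} (n : Fin M → ℕ) where
  U : Fin M → Finset ℕ
  g : Fin M → ℕ → ℕ
  card_U : ∀ c, (U c).card = n c
  lt : ∀ c, ∀ v ∈ U c, 2 * v < b
  sel : ∀ c, ∀ v ∈ U c, g c v < b ∧ v ∈ sup N (g c v)
  inj : ∀ c, ∀ v ∈ U c, ∀ v' ∈ U c, g c v = g c v' → v = v'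

namespace Cols

variable {N b M : ℕ} {n : Fin M → ℕ} (X : Cols N b n)

/-- The cell usage. -/
def use (v : ℕ) : ℕ := ∑ c, ((X.U c).filter fun u => X.g c u / 2 = v).card

/-- The letters of the columns. -/
def K (c : Fin M) (s : Fin (n c)) : Fin b :=
  ⟨X.g c ((X.U c).orderEmbOfFin (X.card_U c) s),
    (X.sel c _ (Finset.orderEmbOfFin_mem _ _ s)).1⟩

lemma K_inj (c : Fin M) : Function.Injective (X.K c) := by
  intro s s' h
  have h1 := congrArg Fin.val h
  have h2 := X.inj c _ (Finset.orderEmbOfFin_mem _ (X.card_U c) s) _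
    (Finset.orderEmbOfFin_mem _ (X.card_U c) s') h1
  exact ((X.U c).orderEmbOfFin (X.card_U c)).injective h2

lemma K_mem (c : Fin M) (s : Fin (n c)) :
    (X.U c).orderEmbOfFin (X.card_U c) s ∈ sup N (X.K c s) :=
  (X.sel c _ (Finset.orderEmbOfFin_mem _ _ s)).2

lemma exists_K {c : Fin M} {v : ℕ} (hv : v ∈ X.U c) : ∃ s, (X.K c s : ℕ) = X.g c v := by
  have h := Finset.range_orderEmbOfFin (X.U c) (X.card_U c)
  have h1 : v ∈ Set.range ((X.U c).orderEmbOfFin (X.card_U c)) := by
    rw [h]
    exact hv
  obtain ⟨s, hs⟩ := h1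
  refine ⟨s, ?_⟩
  change X.g c ((X.U c).orderEmbOfFin (X.card_U c) s) = _
  rw [hs]

lemma card_K (c : Fin M) (p : ℕ → Prop) [DecidablePred p] :
    (univ.filter fun s => p (X.K c s : ℕ)).card = ((X.U c).filter fun u => p (X.g c u)).card := by
  symm
  rw [← Finset.card_map ((X.U c).orderEmbOfFin (X.card_U c)).toEmbedding]
  congr 1
  ext u
  simp only [mem_filter, mem_map, mem_univ, true_and]
  constructor
  · rintro ⟨hu, hp⟩
    have h := Finset.range_orderEmbOfFin (X.U c) (X.card_U c)
    have h1 : u ∈ Set.range ((X.U c).orderEmbOfFin (X.card_U c)) := by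
      rw [h]
      exact hu
    obtain ⟨s, hs⟩ := h1
    refine ⟨s, ?_, hs⟩
    change p (X.g c ((X.U c).orderEmbOfFin (X.card_U c) s))
    rw [hs]
    exact hp
  · rintro ⟨s, hp, hs⟩
    have h1 : (X.U c).orderEmbOfFin (X.card_U c) s = u := hs
    rw [← h1]
    exact ⟨Finset.orderEmbOfFin_mem _ _ s, hp⟩

end Cols

/-- The usage of a cell by one column is at most two. -/
lemma card_cell_le (U : Finset ℕ) (g : ℕ → ℕ)
    (hinj : ∀ v ∈ U, ∀ v' ∈ U, g v = g v' → v = v') (v : ℕ) :
    (U.filter fun u => g u / 2 = v).card ≤ 2 := by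
  have h1 : ((U.filter fun u => g u / 2 = v).image g) ⊆ {2 * v, 2 * v + 1} := by
    intro k hk
    rw [mem_image] at hk
    obtain ⟨u, hu, rfl⟩ := hk
    rw [mem_filter] at hu
    rw [mem_insert, mem_singleton]
    have := hu.2
    omega
  have h2 : ((U.filter fun u => g u / 2 = v).image g).card =
      (U.filter fun u => g u / 2 = v).card := by
    apply Finset.card_image_of_injOn
    intro u hu u' hu' h
    rw [coe_filter, Set.mem_setOf_eq] at hu hu'
    exact hinj u hu.1 u' hu'.1 h
  rw [← h2]
  refine (card_le_card h1).trans ?_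
  exact Finset.card_le_two

/-- **The marker columns exist.** -/
theorem exists_cols (hFill : FillStmt) {N b a q l M Mc : ℕ} (hb : 2 * N ≤ b) (hb' : b ≤ 2 * N + 1)
    (hq : 1 ≤ q) (hql : 4 * q ≤ l) (haN : a ≤ N) (ha4 : 4 ≤ a) (h4M : 4 * M ≤ b)
    (n : Fin M → ℕ) (hnl : ∀ c, l ≤ n c) (hna : ∀ c, n c ≤ a)
    (P : Type) [Fintype P] (sel : P → ℕ → ℕ)
    (hPc : Fintype.card P * (((b + 1) / 2) / q + 1) ^ 4 ≤ Mc) (hMc : Mc ≤ M)
    (hsel : ∀ p v, 2 * v < b → sel p v < b ∧ v ∈ sup N (sel p v))
    (hinj : ∀ p v v', 2 * v < b → 2 * v' < b → sel p v = sel p v' → v = v')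
    (hcov : ∀ S : Finset ℕ, (∀ k ∈ S, k < b) → S.card ≤ 4 →
      (∀ D ⊆ S, D.card ≤ (D.biUnion (sup N)).card) →
      ∃ (p : P) (f : ℕ → ℕ), ∀ k ∈ S, 2 * f k < b ∧ sel p (f k) = k)
    (hroom : N * (2 * Mc + 1) ≤ ((M - Mc) * l / N - 2 * Mc) * (N - a)) :
    ∃ (X : Cols N b n) (κ : ℕ), κ + 1 ≤ a ∧ (∀ v < N, κ ≤ X.use v ∧ X.use v ≤ κ + 1) ∧
      (∀ v, N ≤ v → X.use v ≤ κ) ∧
      ∀ S : Finset ℕ, (∀ k ∈ S, k < b) → S.card ≤ 4 →
        (∀ D ⊆ S, D.card ≤ (D.biUnion (sup N)).card) →
        ∃ c, ∀ k ∈ S, ∃ s, (X.K c s : ℕ) = k := by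
  classical
  set t := ((b + 1) / 2) / q + 1 with ht
  have hN4 : 4 ≤ N := ha4.trans haN
  -- the coverage columns
  let T := P × (Fin 4 → Fin t)
  have hT : Fintype.card T ≤ M := by
    rw [Fintype.card_prod, Fintype.card_fun, Fintype.card_fin, Fintype.card_fin]
    exact hPc.trans hMc
  have hTMc : Fintype.card T ≤ Mc := by
    rw [Fintype.card_prod, Fintype.card_fun, Fintype.card_fin, Fintype.card_fin]
    exact hPc
  let e : T → Fin M := fun x => Fin.castLE hT (Fintype.equivFin T x)
  have he : Function.Injective e :=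
    (Fin.castLE_injective hT).comp (Fintype.equivFin T).injective
  -- cells of the coverage columns
  have hU1 : ∀ x : T, ∃ U : Finset ℕ, ((range ((b + 1) / 2)).filter fun v =>
      ∃ i, v / q = (x.2 i : ℕ)) ⊆ U ∧ U ⊆ range ((b + 1) / 2) ∧ U.card = n (e x) := by
    intro x
    apply Finset.exists_subsuperset_card_eq (filter_subset _ _)
    · have h1 : ((range ((b + 1) / 2)).filter fun v => ∃ i, v / q = (x.2 i : ℕ)) ⊆
          (univ : Finset (Fin 4)).biUnion fun i =>
            Finset.Ico (q * (x.2 i : ℕ)) (q * (x.2 i : ℕ) + q) := by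
        intro v hv
        rw [mem_filter] at hv
        obtain ⟨_, i, hi⟩ := hv
        rw [mem_biUnion]
        refine ⟨i, mem_univ i, ?_⟩
        rw [Finset.mem_Ico, ← hi]
        have h2 := Nat.div_add_mod v q
        have h3 := Nat.mod_lt v hq
        constructor
        · omega
        · omega
      refine (card_le_card h1).trans (Finset.card_biUnion_le.trans ?_)
      simp only [Nat.card_Ico, Nat.add_sub_cancel_left, sum_const, card_univ, Fintype.card_fin,
        smul_eq_mul]
      exact hql.trans (hnl _)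
    · rw [card_range]
      have := hna (e x)
      omega
  choose U1 hU1a hU1b hU1c using hU1
  -- usage by the coverage columns
  set cov : ℕ → ℕ := fun v => ∑ x : T, ((U1 x).filter fun u => sel x.1 u / 2 = v).card with hcovdef
  have hU1lt : ∀ x, ∀ v ∈ U1 x, 2 * v < b := by
    intro x v hv
    have := mem_range.1 (hU1b x hv)
    omega
  have hcov2 : ∀ v, cov v ≤ 2 * Mc := by
    intro v
    have h1 : ∀ x ∈ (univ : Finset T), ((U1 x).filter fun u => sel x.1 u / 2 = v).card ≤ 2 :=
      fun x _ => card_cell_le (U1 x) (sel x.1) (fun v hv v' hv' h =>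
        hinj x.1 v v' (hU1lt x v hv) (hU1lt x v' hv') h) v
    refine (Finset.sum_le_card_nsmul _ _ _ h1).trans ?_
    rw [card_univ, smul_eq_mul]
    omega
  -- the filler columns
  let F := {c : Fin M // c ∉ Set.range e}
  have hFcard : M - Mc ≤ Fintype.card F := by
    have h1 : Fintype.card F = M - Fintype.card (Set.range e) := by
      have := Fintype.card_compl_set (Set.range e)
      rw [Fintype.card_fin] at this
      rw [← this]
      rfl
    rw [h1, Set.card_range_of_injective he]
    omega
  set tot : ℕ := ∑ c : F, n c + ∑ v ∈ range N, cov v with htot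
  set κ : ℕ := tot / N with hκ
  have hκ1 : (M - Mc) * l / N ≤ κ := by
    apply Nat.div_le_div_right
    refine le_trans ?_ (Nat.le_add_right _ _)
    have h1 : Fintype.card F * l ≤ ∑ c : F, n c := by
      rw [← smul_eq_mul, ← card_univ]
      exact Finset.card_nsmul_le_sum _ _ _ fun c _ => hnl c
    exact (Nat.mul_le_mul_right l hFcard).trans h1
  have hκ2 : 2 * Mc ≤ κ := by
    by_contra hlt
    push Not at hlt
    have h1 : (M - Mc) * l / N - 2 * Mc = 0 := by omega
    rw [h1, zero_mul] at hroom
    have : 0 < N * (2 * Mc + 1) := by positivity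
    omega
  have htotle : tot ≤ M * a := by
    have h1 : ∑ v ∈ range N, cov v ≤ ∑ x : T, n (e x) := by
      rw [hcovdef, sum_comm]
      refine sum_le_sum fun x _ => ?_
      rw [← hU1c x]
      have h2 : ∑ v ∈ range N, ((U1 x).filter fun u => sel x.1 u / 2 = v).card =
          ((range N).biUnion fun v => (U1 x).filter fun u => sel x.1 u / 2 = v).card := by
        rw [card_biUnion]
        intro v _ v' _ hvv
        rw [Function.onFun, Finset.disjoint_left]
        intro u hu hu'
        rw [mem_filter] at hu hu'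
        exact hvv (hu.2.symm.trans hu'.2)
      rw [h2]
      apply card_le_card
      intro u hu
      rw [mem_biUnion] at hu
      obtain ⟨v, _, hv⟩ := hu
      exact (mem_filter.1 hv).1
    have h2 : ∑ c : F, n c + ∑ x : T, n (e x) = ∑ c, n c := by
      have h3 : ∑ x : T, n (e x) = ∑ c ∈ univ.filter (fun c => c ∈ Set.range e), n c := by
        rw [← Finset.sum_image (s := (univ : Finset T)) (g := e) (f := n)
          (fun x _ y _ h => he h)]
        congr 1
        ext c
        simp
      have h4 : ∑ c : F, n c = ∑ c ∈ univ.filter (fun c => c ∉ Set.range e), n c := by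
        symm
        apply Finset.sum_subtype
        intro c
        simp
      rw [h3, h4, add_comm]
      exact Finset.sum_filter_add_sum_filter_not _ _ _
    have h5 : ∑ c, n c ≤ M * a := by
      refine (Finset.sum_le_card_nsmul _ _ _ fun c _ => hna c).trans ?_
      rw [card_univ, Fintype.card_fin, smul_eq_mul]
    omega
  have hκa : κ + 1 ≤ a := by
    have h1 : κ * N ≤ M * a := (Nat.div_mul_le_self tot N).trans htotle
    have h2 : 4 * (M * a) ≤ (2 * N + 1) * a := by
      have := Nat.mul_le_mul_right a (h4M.trans hb')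
      calc 4 * (M * a) = 4 * M * a := by ring
        _ ≤ _ := this
    by_contra hlt
    push Not at hlt
    have h3 : a ≤ κ + 0 + 0 ∨ a = κ + 0 := by omega
    have h4 : a ≤ κ := by omega
    have h5 : a * N ≤ κ * N := Nat.mul_le_mul_right N h4
    have h6 : 4 * (a * N) ≤ (2 * N + 1) * a := by omega
    have h7 : 4 * (a * N) = (4 * N) * a := by ring
    rw [h7] at h6
    have h8 : 4 * N ≤ 2 * N + 1 := Nat.le_of_mul_le_mul_right h6 (by omega)
    omega
  let tgt : Fin N → ℕ := fun v => (κ + if (v : ℕ) < tot % N then 1 else 0) - cov v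
  have htgt : ∀ v : Fin N, tgt v + cov v = κ + if (v : ℕ) < tot % N then 1 else 0 := by
    intro v
    have := hcov2 v
    simp only [tgt]
    omega
  have hsumt : ∑ c : F, n c = ∑ v, tgt v := by
    have h1 : ∑ v, tgt v + ∑ v : Fin N, cov v =
        ∑ v : Fin N, (κ + if (v : ℕ) < tot % N then 1 else 0) := by
      rw [← sum_add_distrib]
      exact sum_congr rfl fun v _ => htgt v
    have h2 : ∑ v : Fin N, (κ + if (v : ℕ) < tot % N then 1 else 0) = tot := by
      rw [sum_add_distrib, sum_const, card_univ, Fintype.card_fin, smul_eq_mul]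
      have h3 : ∑ v : Fin N, (if (v : ℕ) < tot % N then 1 else 0) = tot % N := by
        rw [← Finset.sum_range (fun v => if v < tot % N then 1 else 0), ← card_filter]
        have h4 : (range N).filter (fun v => v < tot % N) = range (tot % N) := by
          ext v
          have := Nat.mod_lt tot (show 0 < N by omega)
          rw [mem_filter, mem_range, mem_range]
          omega
        rw [h4, card_range]
      rw [h3, hκ]
      exact Nat.div_add_mod tot N
    have h5 : ∑ v : Fin N, cov v = ∑ v ∈ range N, cov v := by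
      rw [Finset.sum_range]
    omega
  obtain ⟨U2, hU2a, hU2b⟩ := hFill F (Fin N) (fun c => n c) tgt a (κ + 1) (2 * Mc + 1)
    (fun c => hna c) (by rw [Fintype.card_fin]; exact haN)
    (fun v => by
      have h1 := htgt v
      split_ifs at h1 <;> omega)
    (fun v => by
      have h1 := htgt v
      have h2 := hcov2 v
      split_ifs at h1 <;> omega)
    hsumt
    (by
      rw [Fintype.card_fin]
      refine hroom.trans (Nat.mul_le_mul_right _ ?_)
      omega)
  -- the columns
  let dec : Fin M → T ⊕ F := fun c => if h : c ∈ Set.range e then Sum.inl h.choose else Sum.inr ⟨c, h⟩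
  have hdec1 : ∀ x, dec (e x) = Sum.inl x := by
    intro x
    have h : e x ∈ Set.range e := ⟨x, rfl⟩
    simp only [dec, dif_pos h]
    exact congrArg Sum.inl (he h.choose_spec)
  have hdec2 : ∀ c : F, dec c = Sum.inr c := by
    intro c
    simp only [dec, dif_neg c.2]
    rfl
  have hcases : ∀ c : Fin M, (∃ x, c = e x) ∨ ∃ c' : F, c = c' := by
    intro c
    by_cases h : c ∈ Set.range e
    · obtain ⟨x, hx⟩ := h
      exact Or.inl ⟨x, hx.symm⟩
    · exact Or.inr ⟨⟨c, h⟩, rfl⟩
  let U : Fin M → Finset ℕ := fun c => Sum.elim (fun x => U1 x)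
    (fun c' => (U2 c').map Fin.valEmbedding) (dec c)
  let g : Fin M → ℕ → ℕ := fun c => Sum.elim (fun x => sel x.1) (fun _ v => 2 * v) (dec c)
  have hUe : ∀ x, U (e x) = U1 x := fun x => by simp only [U, hdec1, Sum.elim_inl]
  have hUF : ∀ c : F, U c = (U2 c).map Fin.valEmbedding := fun c => by
    simp only [U, hdec2, Sum.elim_inr]
  have hge : ∀ x, g (e x) = sel x.1 := fun x => by simp only [g, hdec1, Sum.elim_inl]
  have hgF : ∀ c : F, g c = fun v => 2 * v := fun c => by simp only [g, hdec2, Sum.elim_inr]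
  let X : Cols N b n :=
    { U := U
      g := g
      card_U := by
        intro c
        rcases hcases c with ⟨x, rfl⟩ | ⟨c', rfl⟩
        · rw [hUe, hU1c]
        · rw [hUF, card_map, hU2a]
      lt := by
        intro c v hv
        rcases hcases c with ⟨x, rfl⟩ | ⟨c', rfl⟩
        · rw [hUe] at hv
          exact hU1lt x v hv
        · rw [hUF, mem_map] at hv
          obtain ⟨v', _, rfl⟩ := hv
          have := v'.2
          simp only [Fin.valEmbedding_apply]
          omega
      sel := by
        intro c v hv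
        rcases hcases c with ⟨x, rfl⟩ | ⟨c', rfl⟩
        · rw [hUe] at hv
          rw [hge]
          exact hsel x.1 v (hU1lt x v hv)
        · rw [hUF, mem_map] at hv
          obtain ⟨v', _, rfl⟩ := hv
          have := v'.2
          rw [hgF]
          simp only [Fin.valEmbedding_apply]
          refine ⟨by omega, ?_⟩
          rw [sup, if_neg (by omega), if_pos (by omega), mem_singleton]
          omega
      inj := by
        intro c v hv v' hv' h
        rcases hcases c with ⟨x, rfl⟩ | ⟨c', rfl⟩
        · rw [hUe] at hv hv'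
          rw [hge] at h
          exact hinj x.1 v v' (hU1lt x v hv) (hU1lt x v' hv') h
        · rw [hgF] at h
          simp only at h
          omega }
  have huse : ∀ v, X.use v = cov v + ∑ c : F, ((U c).filter fun u => 2 * u / 2 = v).card := by
    intro v
    have h1 : X.use v = ∑ c, ((U c).filter fun u => g c u / 2 = v).card := rfl
    rw [h1]
    have h3 : cov v = ∑ c ∈ univ.filter (fun c => c ∈ Set.range e),
        ((U c).filter fun u => g c u / 2 = v).card := by
      have h4 : (univ.filter fun c => c ∈ Set.range e) = (univ : Finset T).image e := by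
        ext c
        simp
      rw [h4, Finset.sum_image (fun x _ y _ h => he h)]
      simp only [hcovdef]
      refine sum_congr rfl fun x _ => ?_
      rw [hUe, hge]
    have h5 : ∑ c : F, ((U c).filter fun u => 2 * u / 2 = v).card =
        ∑ c ∈ univ.filter (fun c => c ∉ Set.range e),
          ((U c).filter fun u => g c u / 2 = v).card := by
      have h6 : ∑ c : F, ((U c).filter fun u => 2 * u / 2 = v).card =
          ∑ c : F, ((U c).filter fun u => g c u / 2 = v).card := by
        refine sum_congr rfl fun c _ => ?_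
        rw [hgF]
      rw [h6]
      symm
      apply Finset.sum_subtype
      intro c
      simp
    rw [h3, h5]
    exact (Finset.sum_filter_add_sum_filter_not _ _ _).symm
  have hfill : ∀ v, ∑ c : F, ((U c).filter fun u => 2 * u / 2 = v).card =
      if h : v < N then tgt ⟨v, h⟩ else 0 := by
    intro v
    split_ifs with h
    · rw [← hU2b ⟨v, h⟩, card_filter]
      refine sum_congr rfl fun c _ => ?_
      rw [hUF]
      by_cases hv : (⟨v, h⟩ : Fin N) ∈ U2 c
      · rw [if_pos hv]
        rw [card_eq_one]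
        refine ⟨v, ?_⟩
        ext u
        rw [mem_filter, mem_map, mem_singleton]
        constructor
        · rintro ⟨_, h2⟩
          omega
        · rintro rfl
          exact ⟨⟨⟨u, h⟩, hv, rfl⟩, by omega⟩
      · rw [if_neg hv, card_eq_zero, filter_eq_empty_iff]
        intro u hu h2
        rw [mem_map] at hu
        obtain ⟨u', hu', rfl⟩ := hu
        apply hv
        have h3 : (u' : ℕ) = v := by
          simp only [Fin.valEmbedding_apply] at h2
          omega
        have h4 : u' = ⟨v, h⟩ := Fin.ext h3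
        rwa [← h4]
    · apply sum_eq_zero
      intro c _
      rw [hUF, card_eq_zero, filter_eq_empty_iff]
      intro u hu h2
      rw [mem_map] at hu
      obtain ⟨u', hu', rfl⟩ := hu
      have := u'.2
      simp only [Fin.valEmbedding_apply] at h2
      omega
  refine ⟨X, κ, hκa, ?_, ?_, ?_⟩
  · intro v hv
    rw [huse, hfill, dif_pos hv]
    have := htgt ⟨v, hv⟩
    simp only at this
    split_ifs at this <;> omega
  · intro v hv
    rw [huse, hfill, dif_neg (by omega)]
    have := hcov2 v
    omega
  · intro S hS hS4 hH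
    obtain ⟨p, f, hf⟩ := hcov S hS hS4 hH
    -- the blocks
    have hβ : ∃ β : Fin 4 → Fin t, ∀ k ∈ S, ∃ i, f k / q = (β i : ℕ) := by
      have hlt : ∀ k ∈ S, f k / q < t := by
        intro k hk
        have h1 := (hf k hk).1
        have h2 : f k ≤ (b + 1) / 2 := by omega
        have h3 := Nat.div_le_div_right (c := q) h2
        omega
      rcases S.eq_empty_or_nonempty with h0 | ⟨k0, hk0⟩
      · refine ⟨fun _ => ⟨0, Nat.succ_pos _⟩, ?_⟩
        intro k hk
        rw [h0] at hk
        exact absurd hk (Finset.notMem_empty k)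
      · let en : Fin S.card ≃ S := (Fintype.equivFinOfCardEq (by simp)).symm
        refine ⟨fun i => if h : (i : ℕ) < S.card then
          ⟨f (en ⟨i, h⟩ : S) / q, hlt _ (en ⟨i, h⟩).2⟩ else ⟨f k0 / q, hlt k0 hk0⟩, ?_⟩
        intro k hk
        have h1 := (en.symm ⟨k, hk⟩).2
        refine ⟨⟨en.symm ⟨k, hk⟩, by omega⟩, ?_⟩
        have h2 : en ⟨(en.symm ⟨k, hk⟩ : ℕ), h1⟩ = ⟨k, hk⟩ := by
          rw [Fin.eta, Equiv.apply_symm_apply]
        simp only
        rw [dif_pos h1, h2]
    obtain ⟨β, hβ⟩ := hβ
    refine ⟨e (p, β), fun k hk => ?_⟩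
    have h1 : f k ∈ X.U (e (p, β)) := by
      change f k ∈ U (e (p, β))
      rw [hUe]
      apply hU1a
      rw [mem_filter, mem_range]
      refine ⟨?_, hβ k hk⟩
      have := (hf k hk).1
      omega
    obtain ⟨s, hs⟩ := X.exists_K h1
    refine ⟨s, ?_⟩
    rw [hs]
    change g (e (p, β)) (f k) = k
    rw [hge]
    exact (hf k hk).2

end Vale.Agent.P181.H261
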