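import Vale.Agent.P181.H261.Strat
import Vale.Agent.P181.H261.BalW
import Vale.Agent.P181.H261.Mark
import Vale.Agent.P181.H921.Col
import Vale.Agent.P181.H539.Upper
import Vale.Agent.P181.T4.Asm

set_option autoImplicit false

/-!
P181, S8: Foulkes' inequality for `(2 + ε) a ≤ b` and all shapes with a short first row.
-/

open Finset

namespace Vale.Agent.P181.H261

open Vale.Agent.P181 Vale.Agent.P181.H280 Vale.Agent.P181.FR Vale.Agent.P181.H188W
open Vale.Agent.P181.T4 Vale.Agent.P181.H463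

/-- **The stratum bound, `gt` form.** -/
theorem strat_gt {a m b Q N : ℕ} (hNQ : N ≤ Q) {lam η : Fin m → ℕ} (hη : Antitone η)
    (hN0 : 0 < N) {M : Type} [Fintype M] (lenM : M → ℕ) (hlenM : ∀ c, lenM c ≤ m)
    (hlam : ∀ i : Fin m, (univ.filter fun c => (i : ℕ) < lenM c).card + η i = lam i)
    (sp : Fin b → Finset (Fin Q)) (cell : Fin b → Fin Q) (hcell : ∀ k, cell k ∈ sp k)
    (K : (c : M) → Fin (lenM c) → Fin b) (hKinj : ∀ c, Function.Injective (K c))
    (hind : ∀ c, ∃ f : Fin (lenM c) → Fin Q, Function.Injective f ∧ ∀ s, f s ∈ sp (K c s))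
    (hrig : ∀ σ : Equiv.Perm (Fin b), σ ≠ 1 → ∃ c, ∃ D : Finset (Fin (lenM c)),
      (D.biUnion fun s => sp (σ (K c s))).card < D.card)
    (d : Fin Q → ℕ) (hd : ∀ i j : Fin Q, (j : ℕ) < N → d i ≤ d j + 1)
    (hs : ∑ q, d q = ∑ i, η i)
    (hdeg : ∀ v, d v + ∑ c, (univ.filter fun s => cell (K c s) = v).card =
      a * (univ.filter fun k => cell k = v).card)
    (hK : ∀ k, ∑ c, (univ.filter fun s => K c s = k).card ≤ a) :
    gt m N η ≤ ((∑ i, η i) + N - 1).choose (N - 1) * plethMult b a m lam := by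
  classical
  refine gt_le_of_family' hNQ η hη d (fun h => by omega) hd hs ?_
  intro C ι _ _ len hlen hcol J hJ hli
  refine strat_le sp lenM hlenM len hlen ?_ cell hcell K hKinj hind hrig J ?_ hK hli
  · intro i
    rw [hcol i, hlam i]
  · intro β v
    rw [hJ β v]
    exact hdeg v

/-- Removing the first `M` columns. -/
theorem gt_cut {a M : ℕ} {lam : Fin a → ℕ} (hlam : Antitone lam) :
    gt a a lam ≤ a ^ (∑ c : Fin M, collen lam M c) * gt a a (fun i => lam i - M) := by
  classical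
  have hη : Antitone (fun i => lam i - M) := fun i j h => Nat.sub_le_sub_right (hlam h) M
  have h1 := Vale.Agent.P181.H921.gt_addcols_le (n := a) a (univ : Finset (Fin M))
    (collen lam M) (fun c _ => collen_le lam M c) hη
  have h2 : (fun i : Fin a => (lam i - M) +
      ((univ : Finset (Fin M)).filter fun c => (i : ℕ) < collen lam M c).card) = lam := by
    funext i
    have h3 : ((univ : Finset (Fin M)).filter fun c => (i : ℕ) < collen lam M c).card =
        min (lam i) M := by
      simp only [lt_collen hlam]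
      rw [Fin.card_filter_val_lt]
      exact min_comm _ _
    rw [h3]
    omega
  rw [h2] at h1
  refine h1.trans (Nat.mul_le_mul_right _ ?_)
  rw [← Finset.prod_pow_eq_pow_sum]
  exact Finset.prod_le_prod' fun c _ => Nat.choose_le_pow _ _

/-- The final comparison. -/
theorem compare {a b N M L0 : ℕ} {lam : Fin a → ℕ} (hlam : Antitone lam) (ha : 0 < a)
    (haN : a ≤ N) (hL : ∀ i, lam i ≤ L0)
    (hnum : (a : ℝ) ^ (∑ c : Fin M, collen lam M c) *
      ((((∑ i, (lam i - M)) + N - 1).choose (N - 1) : ℕ) : ℝ) ≤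
      Real.exp (((N - a : ℕ) : ℝ) * ((∑ i, (lam i - M) : ℕ) : ℝ) / ((N + L0 : ℕ) : ℝ)))
    (hC : gt a N (fun i => lam i - M) ≤
      ((∑ i, (lam i - M)) + N - 1).choose (N - 1) * plethMult b a a lam) :
    plethMult a b a lam ≤ plethMult b a a lam := by
  have hη : Antitone (fun i => lam i - M) := fun i j h => Nat.sub_le_sub_right (hlam h) M
  have h1 := plethMult_le_pow (a := a) (b := b) (c := a) (R := 0) (m := a) (Nat.zero_add a) lam L0
    (fun i hi => absurd hi (Nat.not_lt_zero _))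
  have h2 : (fun i : Fin a => lam ⟨0 + i, by have := i.isLt; omega⟩) = lam := by
    funext i
    congr 1
    exact Fin.ext (Nat.zero_add _)
  rw [h2, Nat.zero_mul, pow_zero, one_mul] at h1
  have h3 := Vale.Agent.P181.H539.finrank_HW_le_gt a a hlam
  have h4 := gt_cut (M := M) hlam
  have h5 := Vale.Agent.P181.H19.gt_exp (n := a) (a := a) (N := N) (L := L0) le_rfl haN
    (fun i => lam i - M) hη (fun i => (Nat.sub_le _ _).trans (hL i))
  set S : ℕ := ∑ c : Fin M, collen lam M c with hS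
  set mm : ℕ := ∑ i, (lam i - M) with hmm
  set x : ℝ := ((N - a : ℕ) : ℝ) * (mm : ℝ) / ((N + L0 : ℕ) : ℝ) with hx
  set G : ℝ := (gt a a (fun i => lam i - M) : ℝ) with hG
  set G' : ℝ := (gt a N (fun i => lam i - M) : ℝ) with hG'
  set Cc : ℝ := (((mm + N - 1).choose (N - 1) : ℕ) : ℝ) with hCc
  set P : ℝ := (plethMult b a a lam : ℝ) with hP
  have h6 : (plethMult a b a lam : ℝ) ≤ (a : ℝ) ^ S * G := by
    rw [hG]
    exact_mod_cast (h1.trans h3).trans h4
  have h8 : G' ≤ Cc * P := by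
    rw [hG', hCc, hP]
    exact_mod_cast hC
  have hex : 0 < Real.exp x := Real.exp_pos x
  have hP0 : 0 ≤ P := Nat.cast_nonneg _
  have hL0 : (0 : ℝ) ≤ (a : ℝ) ^ S := by positivity
  have h9 : (plethMult a b a lam : ℝ) * Real.exp x ≤ P * Real.exp x := by
    calc (plethMult a b a lam : ℝ) * Real.exp x
        ≤ ((a : ℝ) ^ S * G) * Real.exp x := mul_le_mul_of_nonneg_right h6 hex.le
      _ = (a : ℝ) ^ S * (G * Real.exp x) := by ring
      _ ≤ (a : ℝ) ^ S * G' := mul_le_mul_of_nonneg_left h5 hL0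
      _ ≤ (a : ℝ) ^ S * (Cc * P) := mul_le_mul_of_nonneg_left h8 hL0
      _ = ((a : ℝ) ^ S * Cc) * P := by ring
      _ ≤ Real.exp x * P := mul_le_mul_of_nonneg_right hnum hP0
      _ = P * Real.exp x := mul_comm _ _
  have h10 : (plethMult a b a lam : ℝ) ≤ (plethMult b a a lam : ℝ) :=
    le_of_mul_le_mul_right h9 hex
  exact_mod_cast h10

lemma half_mem {N k : ℕ} : k / 2 ∈ sup N k := by
  unfold sup
  split_ifs with h1 h2
  · subst h1
    simp
  · simp
  · simp

end Vale.Agent.P181.H261
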