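import Vale.Agent.P181.H261.Main8
import Vale.Agent.P181.H539.Growth

set_option autoImplicit false

/-!
P181, S8 in class form: removing the shortest `M` columns of a class of columns.
-/

open Finset

namespace Vale.Agent.P181.H261

open Vale.Agent.P181 Vale.Agent.P181.H280 Vale.Agent.P181.FR Vale.Agent.P181.H188W
open Vale.Agent.P181.T4 Vale.Agent.P181.H463

/-- The columns `n0 - M, ..., n0 - 1`. -/
def lenB {n : ℕ} (lam : Fin n → ℕ) (n0 M : ℕ) (c : Fin M) : ℕ :=
  (univ.filter fun i : Fin n => n0 - M + (c : ℕ) < lam i).card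

/-- The shape without these columns. -/
def etaB {n : ℕ} (lam : Fin n → ℕ) (n0 M : ℕ) (i : Fin n) : ℕ :=
  lam i - min M (lam i - (n0 - M))

section

variable {n n0 M : ℕ} {lam : Fin n → ℕ}

lemma lenB_le (c : Fin M) : lenB lam n0 M c ≤ n := by
  unfold lenB
  exact (card_filter_le _ _).trans (by rw [card_univ, Fintype.card_fin])

lemma lt_lenB (hlam : Antitone lam) (i : Fin n) (c : Fin M) :
    (i : ℕ) < lenB lam n0 M c ↔ n0 - M + (c : ℕ) < lam i := by
  have h := lt_collen hlam (L := n0 - M + M) i ⟨n0 - M + c, by have := c.2; omega⟩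
  exact h

lemma card_lenB (hlam : Antitone lam) (i : Fin n) :
    (univ.filter fun c : Fin M => (i : ℕ) < lenB lam n0 M c).card =
      min M (lam i - (n0 - M)) := by
  have h1 : (univ.filter fun c : Fin M => (i : ℕ) < lenB lam n0 M c) =
      univ.filter fun c : Fin M => (c : ℕ) < lam i - (n0 - M) := by
    ext c
    rw [mem_filter, mem_filter, lt_lenB hlam]
    simp only [mem_univ, true_and]
    omega
  rw [h1, Fin.card_filter_val_lt]

lemma etaB_add (hlam : Antitone lam) (i : Fin n) :
    (univ.filter fun c : Fin M => (i : ℕ) < lenB lam n0 M c).card + etaB lam n0 M i = lam i := by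
  rw [card_lenB hlam, etaB]
  omega

lemma etaB_anti (hlam : Antitone lam) : Antitone (etaB lam n0 M) := by
  intro i j h
  have := hlam h
  unfold etaB
  omega

lemma etaB_le (i : Fin n) : etaB lam n0 M i ≤ lam i := Nat.sub_le _ _

lemma le_etaB {i : Fin n} (h : n0 - M ≤ lam i) : n0 - M ≤ etaB lam n0 M i := by
  unfold etaB
  omega

lemma sum_etaB (hlam : Antitone lam) :
    ∑ i, etaB lam n0 M i + ∑ c, lenB lam n0 M c = ∑ i, lam i := by
  rw [← sum_rows n _ (fun c => lenB_le c), ← Finset.sum_add_distrib]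
  refine Finset.sum_congr rfl fun i _ => ?_
  rw [add_comm]
  exact etaB_add (n0 := n0) (M := M) hlam i

/-- Removing the columns. -/
theorem gt_cutB (hlam : Antitone lam) (a : ℕ) :
    gt n a lam ≤ a ^ (∑ c : Fin M, lenB lam n0 M c) * gt n a (etaB lam n0 M) := by
  classical
  have h1 := Vale.Agent.P181.H921.gt_addcols_le (n := n) a (univ : Finset (Fin M))
    (lenB lam n0 M) (fun c _ => lenB_le c) (etaB_anti (n0 := n0) (M := M) hlam)
  have h2 : (fun i : Fin n => etaB lam n0 M i +
      ((univ : Finset (Fin M)).filter fun c => (i : ℕ) < lenB lam n0 M c).card) = lam := by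
    funext i
    have := etaB_add (n0 := n0) (M := M) hlam i
    omega
  rw [h2] at h1
  refine h1.trans (Nat.mul_le_mul_right _ ?_)
  rw [← Finset.prod_pow_eq_pow_sum]
  exact Finset.prod_le_prod' fun c _ => Nat.choose_le_pow _ _

end

end Vale.Agent.P181.H261
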