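import Vale.Agent.P181.H59.Spec

/-!
# P181, S6: star designs for columns of length between b^eps and b^(1-eps) (specification)

Stars = trimmed residue classes modulo q_j = w * u_j, `K` kinds of stars (j < K).
-/

set_option autoImplicit false

namespace Vale.Agent.P181.H261.S6

open Finset Vale.Agent.P181.H59

/-- A star system with `K` kinds of stars on the letters `Fin b`: stars of the same kind are
disjoint, different stars meet in at most `h / 100` letters, the sizes are between `h` and `h + s`,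
every star contains at least `0.24 h` letters of each of the four colours (two bits), and only the
identity permutes the stars. -/
structure Sys6 (b K R h s : ℕ) where
  fam : Fin R → Fin K
  st : Fin R → Finset (Fin b)
  col : Fin b → Fin 2 → Bool
  disj : ∀ i i', i ≠ i' → fam i = fam i' → Disjoint (st i) (st i')
  inter : ∀ i i', i ≠ i' → 100 * (st i ∩ st i').card ≤ h
  size : ∀ i, h ≤ (st i).card ∧ (st i).card ≤ h + s
  part : ∀ i (κ : Fin 2 → Bool), 24 * h ≤ 100 * ((st i).filter fun p => col p = κ).card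
  rigid : ∀ ρ : Equiv.Perm (Fin b), (∀ i, ∃ j, (st i).image ρ = st j) → ρ = 1

/-- **[S6-STR]** star systems exist (`n = w * U * K!`, about `b / h`). -/
def StrStmt6 : Prop :=
  ∀ K U w b : ℕ, 2 ≤ K → 1000 * K ^ 2 ≤ U → b ≤ U ^ (K - 1) → 1 ≤ w →
    1000 * K ^ 2 * K.factorial * U * (w * U * K.factorial) ≤ b →
    ∃ R h : ℕ, Nonempty (Sys6 b K R h (K * ((U + K) * K.factorial + 1))) ∧ 0 < R ∧
      R ≤ 2 * K * (w * U * K.factorial) ∧ 99 * b ≤ 100 * (h * (w * U * K.factorial)) ∧
      h * (w * U * K.factorial) ≤ b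

/-- the letters available to the star `i` if the special kind is `j0`, the bit is `u` and its value
for the special kind is `β`. -/
def avail {b K R h s : ℕ} (S : Sys6 b K R h s) (j0 : Fin K) (u : Fin 2) (β : Bool) (i : Fin R) :
    Finset (Fin b) :=
  (S.st i).filter fun p => if S.fam i = j0 then S.col p u = β else S.col p u ≠ β

/-- the number of letters taken from the star `i`. -/
def kk {b K R h s : ℕ} (S : Sys6 b K R h s) (j0 : Fin K) (i : Fin R) : ℕ :=
  if S.fam i = j0 then 1 else K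

/-- the probability that no picked letter is in `T`. -/
noncomputable def pick6 {b K R h s : ℕ} (S : Sys6 b K R h s) (T : Finset (Fin b)) : ℝ :=
  (∑ j0 : Fin K, ∑ u : Fin 2, ∑ β : Bool, ∏ i : Fin R,
    (((avail S j0 u β i \ T).card.choose (kk S j0 i) : ℕ) : ℝ) /
      (((avail S j0 u β i).card.choose (kk S j0 i) : ℕ) : ℝ)) / (4 * K)

/-- **[S6-PICK]** lower bound for the probability. -/
def PickStmt6 : Prop :=
  ∀ K : ℕ, 2 ≤ K → ∃ c : ℝ, 0 < c ∧ ∃ H : ℕ, ∀ (b R h s D : ℕ) (S : Sys6 b K R h s)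
    (T : Finset (Fin b)), H ≤ h → 100 * s ≤ h → 0 < R → T.card ≤ h + s → 1 ≤ D →
    (∀ i, D ≤ (S.st i \ T).card) → c * D / h ≤ pick6 S T

/-- certification columns: exact sizes, distinct representatives, every small set that contains no
star is missed by one of the columns, and every letter is in at most `t` columns. -/
def Cert6 {b K R h s N : ℕ} (S : Sys6 b K R h s) (len : Fin N → ℕ) (t : ℕ)
    (A : Fin N → Finset (Fin b)) : Prop :=
  (∀ c, (A c).card = len c) ∧ (∀ c, HasSDR S.st (A c)) ∧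
    (∀ T : Finset (Fin b), T.card ≤ h + s → (∀ i, ¬ S.st i ⊆ T) → ∃ c, Disjoint (A c) T) ∧
    ∀ p, dgr A p ≤ t

/-- **[S6-HIT]** certification columns exist. -/
def HitStmt6 : Prop :=
  ∀ K : ℕ, 2 ≤ K → ∃ C : ℝ, 0 < C ∧ ∃ H : ℕ, ∀ (b R h s f N t : ℕ) (θ : ℝ)
    (S : Sys6 b K R h s), H ≤ h → 100 * s ≤ h → 0 < R → R ≤ b → f + (h + s) ≤ b → 0 < θ →
    θ * (b.choose f : ℕ) ≤ ((b - (h + s)).choose f : ℕ) →
    C * h * (s + 1) * Real.log (b + 1) ≤ N * θ →
    C * (N * (1 / h + f / b) + Real.log (b + 1)) ≤ t →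
    ∀ len : Fin N → ℕ, (∀ c, K * R ≤ len c ∧ len c ≤ f) →
    ∃ A : Fin N → Finset (Fin b), Cert6 S len t A

/-- **[S6-SEQ]** -/
def SeqStmt6 : Prop := PickStmt6 → HitStmt6

/-- **[S6-DES]** the design for columns of length between `b ^ ε` and `b ^ (1 - ε)`. -/
def DesignStmt6 : Prop :=
  ∀ ε δ : ℝ, 0 < ε → ε ≤ 1 / 8 → 0 < δ → ∃ b0 : ℕ, ∀ b a m N : ℕ, b0 ≤ b → (1 + δ) * a ≤ b →
    (b : ℝ) ^ ε ≤ m → (m : ℝ) ≤ (b : ℝ) ^ (1 - ε) → m ≤ a → (b : ℝ) ^ (1 + ε) ≤ N * m →
    ∀ len : Fin N → ℕ, (∀ c, m ≤ len c ∧ len c ≤ 2 * m ∧ len c ≤ a) →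
    ∃ R : ℕ, R ≤ m ∧ Design b R N len

/-- **Distinct representatives** from Hall's theorem. -/
theorem hall {ι α : Type} [Fintype ι] [DecidableEq α] (st : ι → Finset α) (A : Finset α) (K : ℕ)
    (hK : 0 < K) (hdeg : ∀ p, (univ.filter fun i => p ∈ st i).card ≤ K)
    (hA : ∀ i, K ≤ (A ∩ st i).card) : HasSDR st A := by
  classical
  have h1 : ∀ s : Finset ι, s.card ≤ (s.biUnion fun i => A ∩ st i).card := by
    intro s
    have h2 : K * s.card ≤ K * (s.biUnion fun i => A ∩ st i).card := by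
      calc K * s.card = ∑ _i ∈ s, K := by rw [sum_const, smul_eq_mul, mul_comm]
        _ ≤ ∑ i ∈ s, (A ∩ st i).card := sum_le_sum fun i _ => hA i
        _ = ∑ i ∈ s, ∑ p ∈ s.biUnion (fun i => A ∩ st i), if p ∈ A ∩ st i then 1 else 0 := by
            refine sum_congr rfl fun i hi => ?_
            rw [← card_filter]
            congr 1
            ext p
            rw [mem_filter, mem_biUnion]
            exact ⟨fun h => ⟨⟨i, hi, h⟩, h⟩, fun h => h.2⟩
        _ = ∑ p ∈ s.biUnion (fun i => A ∩ st i), ∑ i ∈ s, if p ∈ A ∩ st i then 1 else 0 :=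
            sum_comm
        _ ≤ ∑ _p ∈ s.biUnion (fun i => A ∩ st i), K := by
            refine sum_le_sum fun p _ => ?_
            rw [← card_filter]
            refine le_trans (card_le_card ?_) (hdeg p)
            intro i hi
            rw [mem_filter] at hi
            exact mem_filter.2 ⟨mem_univ _, (mem_inter.1 hi.2).2⟩
        _ = K * (s.biUnion fun i => A ∩ st i).card := by
            rw [sum_const, smul_eq_mul, mul_comm]
    exact Nat.le_of_mul_le_mul_left h2 hK
  obtain ⟨f, hf, hf2⟩ := (Finset.all_card_le_biUnion_card_iff_exists_injective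
    (fun i => A ∩ st i)).1 h1
  exact ⟨f, hf, fun i => ⟨(mem_inter.1 (hf2 i)).1, (mem_inter.1 (hf2 i)).2⟩⟩

/-- every letter is in at most `K` stars. -/
theorem Sys6.deg_le {b K R h s : ℕ} (S : Sys6 b K R h s) (p : Fin b) :
    (univ.filter fun i => p ∈ S.st i).card ≤ K := by
  classical
  have h1 : (univ.filter fun i => p ∈ S.st i).card ≤ (univ : Finset (Fin K)).card := by
    refine card_le_card_of_injOn S.fam (fun i _ => mem_univ _) ?_
    intro i hi i' hi' h
    by_contra hne
    rw [mem_coe, mem_filter] at hi hi'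
    exact (disjoint_left.1 (S.disj i i' hne h)) hi.2 hi'.2
  simpa using h1

/-- Distinct representatives if `A` contains one letter `φ i` of every star of kind `j0` and `K`
letters, different from these, of every other star. -/
theorem Sys6.sdr {b K R h s : ℕ} (S : Sys6 b K R h s) (hK : 0 < K) (j0 : Fin K)
    (A B : Finset (Fin b)) (φ : Fin R → Fin b) (hB : B ⊆ A)
    (hφ : ∀ i, S.fam i = j0 → φ i ∈ A ∧ φ i ∈ S.st i ∧ φ i ∉ B)
    (hBc : ∀ i, S.fam i ≠ j0 → K ≤ (B ∩ S.st i).card) : HasSDR S.st A := by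
  classical
  obtain ⟨ψ, hψ, hψ2⟩ := hall (fun i : {i // S.fam i ≠ j0} => S.st i) B K hK
    (fun p => by
      refine le_trans ?_ (S.deg_le p)
      refine card_le_card_of_injOn (fun i => (i : Fin R)) ?_ ?_
      · intro i hi
        rw [mem_coe, mem_filter] at hi
        rw [mem_coe, mem_filter]
        exact ⟨mem_univ _, hi.2⟩
      · intro i _ i' _ h
        exact Subtype.ext h)
    (fun i => hBc i i.2)
  refine ⟨fun i => if h : S.fam i = j0 then φ i else ψ ⟨i, h⟩, ?_, ?_⟩
  · intro i i' h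
    dsimp only at h
    by_cases h1 : S.fam i = j0
    · by_cases h2 : S.fam i' = j0
      · rw [dif_pos h1, dif_pos h2] at h
        by_contra hne
        refine (disjoint_left.1 (S.disj i i' hne (h1.trans h2.symm))) (hφ i h1).2.1 ?_
        rw [h]
        exact (hφ i' h2).2.1
      · rw [dif_pos h1, dif_neg h2] at h
        exfalso
        apply (hφ i h1).2.2
        rw [h]
        exact (hψ2 _).1
    · by_cases h2 : S.fam i' = j0
      · rw [dif_neg h1, dif_pos h2] at h
        exfalso
        apply (hφ i' h2).2.2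
        rw [← h]
        exact (hψ2 _).1
      · rw [dif_neg h1, dif_neg h2] at h
        exact congrArg Subtype.val (hψ h)
  · intro i
    dsimp only
    by_cases h1 : S.fam i = j0
    · rw [dif_pos h1]
      exact ⟨(hφ i h1).1, (hφ i h1).2.1⟩
    · rw [dif_neg h1]
      exact ⟨hB (hψ2 _).1, (hψ2 ⟨i, h1⟩).2⟩

end Vale.Agent.P181.H261.S6
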