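import Vale.Agent.P181.H261.Orbit

set_option autoImplicit false

/-!
P181, S8: the algebra of the stratum. The letter `k` is the point `∑ v ∈ sp k, W (k, v) A_v` with
free `W` and `A`.
-/

open MvPolynomial

namespace Vale.Agent.P181.H261

open Vale.Agent.P181 Vale.Agent.P181.H280 Vale.Agent.P181.FR Vale.Agent.P181.H188W
open Vale.Agent.P181.T4 Vale.Agent.P181.H463

section

variable {m b Q : ℕ} (sp : Fin b → Finset (Fin Q))

/-- The point of the stratum with the parameters `x`. -/
noncomputable def pt (x : (Fin m × Fin Q) ⊕ (Fin b × Fin Q) → ℂ) : Fin b → Fin m → ℂ :=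
  fun k i => ∑ v ∈ sp k, x (Sum.inr (k, v)) * x (Sum.inl (i, v))

/-- The pull back of a polynomial to the stratum. -/
noncomputable def pull : MvPolynomial (Fin m × Fin b) ℂ →ₐ[ℂ]
    MvPolynomial ((Fin m × Fin Q) ⊕ (Fin b × Fin Q)) ℂ :=
  aeval (fun ij => ∑ v ∈ sp ij.2, X (Sum.inr (ij.2, v)) * X (Sum.inl (ij.1, v)))

lemma eval_pull (F : MvPolynomial (Fin m × Fin b) ℂ)
    (x : (Fin m × Fin Q) ⊕ (Fin b × Fin Q) → ℂ) :
    eval x (pull sp F) = evalP b m F (pt sp x) := by
  rw [evalP_apply, pull, aeval_def, eval_eval₂]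
  have h : (eval x).comp (algebraMap ℂ (MvPolynomial ((Fin m × Fin Q) ⊕ (Fin b × Fin Q)) ℂ)) =
      RingHom.id ℂ := by
    ext c
    simp
  rw [h, ← eval₂_id]
  congr 1
  funext ij
  simp [pt]

/-- A minor with a dependent set of letters vanishes on the stratum. -/
lemma dt_dep {l : ℕ} (hl : l ≤ m) (u : Fin l → Fin b) (D : Finset (Fin l))
    (hD : (D.biUnion fun s => sp (u s)).card < D.card)
    (x : (Fin m × Fin Q) ⊕ (Fin b × Fin Q) → ℂ) : dt hl u (pt sp x) = 0 := by
  classical
  set U := D.biUnion fun s => sp (u s) with hU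
  let g : (D → ℂ) →ₗ[ℂ] (U → ℂ) :=
    { toFun := fun c v => ∑ s : D, c s * (if (v : Fin Q) ∈ sp (u s) then
        x (Sum.inr (u s, (v : Fin Q))) else 0)
      map_add' := by
        intro c c'
        funext v
        simp only [Pi.add_apply, add_mul, Finset.sum_add_distrib]
      map_smul' := by
        intro t c
        funext v
        simp only [Pi.smul_apply, smul_eq_mul, RingHom.id_apply, Finset.mul_sum, mul_assoc] }
  have hker : LinearMap.ker g ≠ ⊥ := by
    apply LinearMap.ker_ne_bot_of_finrank_lt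
    rw [Module.finrank_fintype_fun_eq_card, Module.finrank_fintype_fun_eq_card,
      Fintype.card_coe, Fintype.card_coe]
    exact hD
  obtain ⟨c, hc, hc0⟩ := (Submodule.ne_bot_iff _).1 hker
  rw [dt]
  rw [← Matrix.exists_vecMul_eq_zero_iff]
  refine ⟨fun s => if h : s ∈ D then c ⟨s, h⟩ else 0, ?_, ?_⟩
  · intro h0
    apply hc0
    funext s
    have := congrFun h0 (s : Fin l)
    simpa using this
  · funext k
    rw [Matrix.vecMul, dotProduct, Pi.zero_apply]
    have h1 : ∀ s : Fin l, (if h : s ∈ D then c ⟨s, h⟩ else 0) *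
        (Matrix.of fun j k : Fin l => pt sp x (u j) (Fin.castLE hl k)) s k =
        if h : s ∈ D then ∑ v ∈ U, (c ⟨s, h⟩ * (if v ∈ sp (u s) then x (Sum.inr (u s, v)) else 0)) *
          x (Sum.inl (Fin.castLE hl k, v)) else 0 := by
      intro s
      split_ifs with h
      · rw [Matrix.of_apply, pt, Finset.mul_sum]
        have hsub : sp (u s) ⊆ U := Finset.subset_biUnion_of_mem (fun s => sp (u s)) h
        rw [← Finset.sum_subset hsub]
        · refine Finset.sum_congr rfl fun v hv => ?_
          rw [if_pos hv]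
          ring
        · intro v _ hv
          rw [if_neg hv]
          ring
      · rw [zero_mul]
    rw [Finset.sum_congr rfl (fun s _ => h1 s)]
    have h2 : ∀ f : (s : Fin l) → s ∈ D → ℂ, (∑ s, if h : s ∈ D then f s h else 0) =
        ∑ s : D, f s s.2 := by
      intro f
      have e1 : ∑ s : D, f s s.2 =
          ∑ s : D, (fun s : Fin l => if h : s ∈ D then f s h else 0) (s : Fin l) :=
        Finset.sum_congr rfl fun s _ => by
          dsimp only
          rw [dif_pos s.2]
      rw [e1, Finset.sum_coe_sort D (fun s => if h : s ∈ D then f s h else 0)]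
      symm
      apply Finset.sum_subset (Finset.subset_univ D)
      intro s _ hs
      rw [dif_neg hs]
    rw [h2 (fun s h => ∑ v ∈ U, (c ⟨s, h⟩ * (if v ∈ sp (u s) then x (Sum.inr (u s, v)) else 0)) *
          x (Sum.inl (Fin.castLE hl k, v)))]
    rw [Finset.sum_comm]
    refine Finset.sum_eq_zero fun v hv => ?_
    rw [← Finset.sum_mul]
    have h3 := congrFun (LinearMap.mem_ker.1 hc) ⟨v, hv⟩
    have h4 : ∑ s : D, c s * (if v ∈ sp (u s) then x (Sum.inr (u s, v)) else 0) = 0 := h3
    rw [h4, zero_mul]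

/-- A minor with a system of distinct representatives does not vanish identically. -/
lemma pull_dt_ne {l : ℕ} (hl : l ≤ m) (u : Fin l → Fin b) (f : Fin l → Fin Q)
    (hu : Function.Injective u) (hf : Function.Injective f) (hfu : ∀ s, f s ∈ sp (u s))
    (F : MvPolynomial (Fin m × Fin b) ℂ) (hF : evalP b m F = dt hl u) : pull sp F ≠ 0 := by
  classical
  intro h0
  let x : (Fin m × Fin Q) ⊕ (Fin b × Fin Q) → ℂ :=
    Sum.elim (fun iv => if ∃ s, Fin.castLE hl s = iv.1 ∧ f s = iv.2 then 1 else 0)
      (fun kv => if ∃ s, u s = kv.1 ∧ f s = kv.2 then 1 else 0)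
  have h1 := eval_pull sp F x
  rw [h0, map_zero, hF, dt] at h1
  have h2 : (Matrix.of fun j k : Fin l => pt sp x (u j) (Fin.castLE hl k)) = 1 := by
    ext s t
    rw [Matrix.of_apply, Matrix.one_apply, pt]
    have h3 : ∀ v, x (Sum.inr (u s, v)) = if f s = v then 1 else 0 := by
      intro v
      change (if ∃ s', u s' = u s ∧ f s' = v then (1 : ℂ) else 0) = _
      refine if_congr ?_ rfl rfl
      constructor
      · rintro ⟨s', h4, h5⟩
        rw [← hu h4]
        exact h5
      · intro h
        exact ⟨s, rfl, h⟩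
    have h4 : ∀ v, x (Sum.inl (Fin.castLE hl t, v)) = if f t = v then 1 else 0 := by
      intro v
      change (if ∃ s', Fin.castLE hl s' = Fin.castLE hl t ∧ f s' = v then (1 : ℂ) else 0) = _
      refine if_congr ?_ rfl rfl
      constructor
      · rintro ⟨s', h4, h5⟩
        rw [← Fin.castLE_injective hl h4]
        exact h5
      · intro h
        exact ⟨t, rfl, h⟩
    rw [Finset.sum_congr rfl (fun v _ => by rw [h3 v, h4 v])]
    rw [Finset.sum_eq_single (f s)]
    · rw [if_pos rfl, one_mul]
      refine if_congr ?_ rfl rfl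
      constructor
      · intro h
        exact hf h.symm
      · intro h
        rw [h]
    · intro v _ hv
      rw [if_neg (fun h => hv h.symm), zero_mul]
    · intro h
      exact absurd (hfu s) h
  rw [h2, Matrix.det_one] at h1
  exact one_ne_zero h1.symm

/-- Lifting a filling to letters with prescribed contents. -/
lemma exists_lift {S : Type*} [Fintype S] [DecidableEq S] (cell : Fin b → Fin Q) (d : Fin b → ℕ)
    (J : S → Fin Q)
    (hJ : ∀ v, (Finset.univ.filter fun s => J s = v).card =
      ∑ k ∈ Finset.univ.filter (fun k => cell k = v), d k) :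
    ∃ J' : S → Fin b, (∀ s, cell (J' s) = J s) ∧
      ∀ k, (Finset.univ.filter fun s => J' s = k).card = d k := by
  classical
  have hcard : ∀ v, Fintype.card {s // J s = v} =
      Fintype.card (Σ k : {k // cell k = v}, Fin (d k)) := by
    intro v
    rw [Fintype.card_subtype, hJ v, Fintype.card_sigma]
    simp only [Fintype.card_fin]
    rw [Finset.sum_subtype (p := fun k => cell k = v)]
    intro k
    simp
  let e : ∀ v, {s // J s = v} ≃ (Σ k : {k // cell k = v}, Fin (d k)) := fun v =>
    Fintype.equivOfCardEq (hcard v)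
  refine ⟨fun s => ((e (J s) ⟨s, rfl⟩).1 : {k // cell k = J s}), fun s =>
    (e (J s) ⟨s, rfl⟩).1.2, ?_⟩
  intro k
  have key : ∀ v (s : {s // J s = v}), ((e (J s) ⟨s, rfl⟩).1 : Fin b) = ((e v s).1 : Fin b) := by
    rintro v ⟨s, rfl⟩
    rfl
  rw [Finset.card_filter]
  have h1 : ∑ s, (if ((e (J s) ⟨s, rfl⟩).1 : Fin b) = k then 1 else 0) =
      ∑ t : {s // J s = cell k}, (if ((e (cell k) t).1 : Fin b) = k then 1 else 0) := by
    have h2 : ∑ t : {s // J s = cell k}, (if ((e (cell k) t).1 : Fin b) = k then 1 else 0) =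
        ∑ t : {s // J s = cell k},
          (fun s => if ((e (J s) ⟨s, rfl⟩).1 : Fin b) = k then 1 else 0) (t : S) := by
      refine Finset.sum_congr rfl fun t _ => ?_
      dsimp only
      rw [key (cell k) t]
    rw [h2, ← Finset.sum_subtype (Finset.univ.filter fun s => J s = cell k) (fun s => by simp)
      (fun s => if ((e (J s) ⟨s, rfl⟩).1 : Fin b) = k then 1 else 0)]
    symm
    apply Finset.sum_subset (Finset.subset_univ _)
    intro s _ hs
    rw [if_neg]
    intro h3
    apply hs
    rw [Finset.mem_filter]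
    refine ⟨Finset.mem_univ _, ?_⟩
    rw [← h3]
    exact ((e (J s) ⟨s, rfl⟩).1.2).symm
  rw [h1, Equiv.sum_comp (e (cell k)) (fun p => if ((p.1 : Fin b)) = k then 1 else 0),
    Fintype.sum_sigma, Finset.sum_eq_single (⟨k, rfl⟩ : {k' // cell k' = cell k})]
  · simp
  · intro k' _ hk'
    refine Finset.sum_eq_zero fun t _ => ?_
    rw [if_neg]
    intro h
    exact hk' (Subtype.ext h)
  · intro h
    exact absurd (Finset.mem_univ _) h

/-- Products of two families of minors. -/
lemma prod_two {a : ℕ} {lam : Fin m → ℕ} {M C : Type} [Fintype M] [Fintype C]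
    (lenM : M → ℕ) (hlenM : ∀ c, lenM c ≤ m) (len : C → ℕ) (hlen : ∀ c, len c ≤ m)
    (hlam : ∀ i : Fin m, (Finset.univ.filter fun c => (i : ℕ) < lenM c).card +
      (Finset.univ.filter fun c => (i : ℕ) < len c).card = lam i)
    (K : (c : M) → Fin (lenM c) → Fin b) (J : (c : C) → Fin (len c) → Fin b)
    (hdeg : ∀ j, ∑ c, (Finset.univ.filter fun i => K c i = j).card +
      ∑ c, (Finset.univ.filter fun i => J c i = j).card = a) :
    (∏ c, dt (hlenM c) (K c)) * (∏ c, dt (hlen c) (J c)) ∈ MP b m a ∧
      HWF b m lam ((∏ c, dt (hlenM c) (K c)) * (∏ c, dt (hlen c) (J c))) := by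
  classical
  have hprod : (∏ c, dt (hlenM c) (K c)) * (∏ c, dt (hlen c) (J c)) =
      ∏ c : M ⊕ C, dt (B := b) (Sum.rec (motive := fun c => Sum.elim lenM len c ≤ m) hlenM hlen c)
        (Sum.rec (motive := fun c => Fin (Sum.elim lenM len c) → Fin b) K J c) := by
    rw [Fintype.prod_sum_type]
    rfl
  rw [hprod]
  constructor
  · refine H498.prod_dt_MP (Sum.elim lenM len) _ _ ?_
    intro j
    rw [Fintype.sum_sum_type, ← hdeg j]
    congr 1
  · refine H498.prod_dt_HWF (Sum.elim lenM len) _ _ lam ?_
    intro i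
    rw [← hlam i, Finset.card_filter, Fintype.sum_sum_type, Finset.card_filter,
      Finset.card_filter]
    rfl

/-- **The stratum bound.** -/
theorem strat_le {a : ℕ} {lam : Fin m → ℕ} {M C ι : Type} [Fintype M] [Fintype C] [Fintype ι]
    (lenM : M → ℕ) (hlenM : ∀ c, lenM c ≤ m) (len : C → ℕ) (hlen : ∀ c, len c ≤ m)
    (hlam : ∀ i : Fin m, (Finset.univ.filter fun c => (i : ℕ) < lenM c).card +
      (Finset.univ.filter fun c => (i : ℕ) < len c).card = lam i)
    (cell : Fin b → Fin Q) (hcell : ∀ k, cell k ∈ sp k)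
    (K : (c : M) → Fin (lenM c) → Fin b) (hKinj : ∀ c, Function.Injective (K c))
    (hind : ∀ c, ∃ f : Fin (lenM c) → Fin Q, Function.Injective f ∧ ∀ s, f s ∈ sp (K c s))
    (hrig : ∀ σ : Equiv.Perm (Fin b), σ ≠ 1 → ∃ c, ∃ D : Finset (Fin (lenM c)),
      (D.biUnion fun s => sp (σ (K c s))).card < D.card)
    (J : ι → (c : C) → Fin (len c) → Fin Q)
    (hJ : ∀ β v, ∑ c, (Finset.univ.filter fun s => J β c s = v).card +
      ∑ c, (Finset.univ.filter fun s => cell (K c s) = v).card =
        a * (Finset.univ.filter fun k => cell k = v).card)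
    (hK : ∀ k, ∑ c, (Finset.univ.filter fun s => K c s = k).card ≤ a)
    (hli : LinearIndependent ℂ (fun (β : ι) (z : Fin Q → Fin m → ℂ) =>
      (∏ c, dt (hlen c) (J β c)) z)) :
    Fintype.card ι ≤ plethMult b a m lam := by
  classical
  set e : Fin b → ℕ := fun k => ∑ c, (Finset.univ.filter fun s => K c s = k).card with he
  -- lifting
  have hlift : ∀ β, ∃ J' : (c : C) → Fin (len c) → Fin b,
      (∀ c s, cell (J' c s) = J β c s) ∧
      ∀ k, ∑ c, (Finset.univ.filter fun s => J' c s = k).card = a - e k := by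
    intro β
    have h1 : ∀ v, (Finset.univ.filter fun s : (Σ c, Fin (len c)) => J β s.1 s.2 = v).card =
        ∑ k ∈ Finset.univ.filter (fun k => cell k = v), (a - e k) := by
      intro v
      have h2 : ∑ k ∈ Finset.univ.filter (fun k => cell k = v), (a - e k) +
          ∑ k ∈ Finset.univ.filter (fun k => cell k = v), e k =
          a * (Finset.univ.filter fun k => cell k = v).card := by
        rw [← Finset.sum_add_distrib, Finset.sum_congr rfl
          (fun k _ => Nat.sub_add_cancel (hK k)), Finset.sum_const, smul_eq_mul, mul_comm]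
      have h3 : ∑ k ∈ Finset.univ.filter (fun k => cell k = v), e k =
          ∑ c, (Finset.univ.filter fun s => cell (K c s) = v).card := by
        rw [he, Finset.sum_comm]
        refine Finset.sum_congr rfl fun c _ => ?_
        rw [Finset.card_eq_sum_card_fiberwise (f := K c)
          (t := Finset.univ.filter (fun k => cell k = v))]
        · refine Finset.sum_congr rfl fun k hk => ?_
          congr 1
          ext s
          simp only [Finset.mem_filter, Finset.mem_univ, true_and] at hk ⊢
          constructor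
          · intro h
            exact ⟨by rw [h]; exact hk, h⟩
          · rintro ⟨_, h⟩
            exact h
        · intro s hs
          simpa using hs
      have h4 : (Finset.univ.filter fun s : (Σ c, Fin (len c)) => J β s.1 s.2 = v).card =
          ∑ c, (Finset.univ.filter fun s => J β c s = v).card := by
        simp only [Finset.card_filter]
        rw [Fintype.sum_sigma]
      have h5 := hJ β v
      omega
    obtain ⟨J', h2, h3⟩ := exists_lift cell (fun k => a - e k)
      (fun s : (Σ c, Fin (len c)) => J β s.1 s.2) h1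
    refine ⟨fun c s => J' ⟨c, s⟩, fun c s => h2 ⟨c, s⟩, fun k => ?_⟩
    rw [← h3 k]
    simp only [Finset.card_filter]
    rw [Fintype.sum_sigma]
  choose J' hJ1 hJ2 using hlift
  have hmem : ∀ β, (∏ c, dt (hlenM c) (K c)) * (∏ c, dt (hlen c) (J' β c)) ∈ MP b m a ∧
      HWF b m lam ((∏ c, dt (hlenM c) (K c)) * (∏ c, dt (hlen c) (J' β c))) := by
    intro β
    refine prod_two lenM hlenM len hlen hlam K (J' β) ?_
    intro j
    rw [hJ2 β j]
    exact Nat.add_sub_cancel' (hK j)
  refine plethMult_ge (fun β => (∏ c, dt (hlenM c) (K c)) * (∏ c, dt (hlen c) (J' β c)))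
    (fun β => (hmem β).1) (fun β => (hmem β).2) ?_
  -- polynomials
  have hmn : ∀ c, ∃ F : MvPolynomial (Fin m × Fin b) ℂ, evalP b m F = dt (hlenM c) (K c) := by
    intro c
    have := exists_evalP_prod (b := b) (C := Unit) (fun _ => lenM c) (fun _ => hlenM c)
      (fun _ => K c)
    simpa using this
  choose T hT using hmn
  have hTne : pull sp (∏ c, T c) ≠ 0 := by
    rw [map_prod]
    refine Finset.prod_ne_zero_iff.2 fun c _ => ?_
    obtain ⟨f, hf, hfu⟩ := hind c
    exact pull_dt_ne sp (hlenM c) (K c) f (hKinj c) hf hfu (T c) (hT c)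
  choose F hF using fun β => exists_evalP_prod (b := b) len hlen (J' β)
  have hTe : ∀ z, evalP b m (∏ c, T c) z = (∏ c, dt (hlenM c) (K c)) z := by
    intro z
    rw [evalP_apply, map_prod, Finset.prod_apply]
    refine Finset.prod_congr rfl fun c _ => ?_
    rw [← evalP_apply, hT c]
  rw [linearIndependent_iff'] at hli ⊢
  intro s g hg β hβ
  refine hli s g ?_ β hβ
  have key : ∀ x, (∏ c, dt (hlenM c) (K c)) (pt sp x) *
      ∑ β ∈ s, g β * (∏ c, dt (hlen c) (J' β c)) (pt sp x) = 0 := by
    intro x
    have h1 := congrFun hg (pt sp x)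
    simp only [Finset.sum_apply, Pi.smul_apply, smul_eq_mul, Pi.zero_apply] at h1
    have h2 : ∀ β ∈ s, g β * ∑ τ : Equiv.Perm (Fin b),
        ((∏ c, dt (hlenM c) (K c)) * (∏ c, dt (hlen c) (J' β c))) (fun j => pt sp x (τ j)) =
        (∏ c, dt (hlenM c) (K c)) (pt sp x) *
          (g β * (∏ c, dt (hlen c) (J' β c)) (pt sp x)) := by
      intro β _
      rw [Finset.sum_eq_single (1 : Equiv.Perm (Fin b))]
      · rw [Pi.mul_apply]
        simp only [Equiv.Perm.coe_one, id_eq]
        ring
      · intro τ _ hτ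
        obtain ⟨c, D, hD⟩ := hrig τ hτ
        rw [Pi.mul_apply, Finset.prod_apply, Finset.prod_eq_zero (Finset.mem_univ c), zero_mul]
        rw [dt_perm]
        exact dt_dep sp (hlenM c) (fun s => τ (K c s)) D hD x
      · intro h
        exact absurd (Finset.mem_univ _) h
    rw [Finset.sum_congr rfl h2, ← Finset.mul_sum] at h1
    exact h1
  have hzero : pull sp (∏ c, T c) * pull sp (∑ β ∈ s, g β • F β) = 0 := by
    apply MvPolynomial.funext
    intro x
    rw [map_mul, eval_pull, eval_pull, map_zero, hTe, map_sum, Finset.sum_apply]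
    have h3 := key x
    have h4 : ∑ β ∈ s, evalP b m (g β • F β) (pt sp x) =
        ∑ β ∈ s, g β * (∏ c, dt (hlen c) (J' β c)) (pt sp x) := by
      refine Finset.sum_congr rfl fun β _ => ?_
      rw [map_smul, Pi.smul_apply, smul_eq_mul, hF β]
    rw [h4]
    exact h3
  have hF0 : pull sp (∑ β ∈ s, g β • F β) = 0 := (mul_eq_zero.1 hzero).resolve_left hTne
  funext A
  rw [Finset.sum_apply, Pi.zero_apply]
  let x : (Fin m × Fin Q) ⊕ (Fin b × Fin Q) → ℂ :=
    Sum.elim (fun iv => A iv.2 iv.1) (fun kv => if kv.2 = cell kv.1 then 1 else 0)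
  have hx : pt sp x = fun k => A (cell k) := by
    funext k i
    rw [pt, Finset.sum_eq_single (cell k)]
    · simp [x]
    · intro v _ hv
      simp [x, hv]
    · intro h
      exact absurd (hcell k) h
  have h5 := eval_pull sp (∑ β ∈ s, g β • F β) x
  rw [hF0, map_zero, map_sum, Finset.sum_apply, hx] at h5
  rw [h5]
  refine Finset.sum_congr rfl fun β _ => ?_
  rw [map_smul, hF β, Pi.smul_apply, Pi.smul_apply, smul_eq_mul, smul_eq_mul]
  congr 1
  rw [Finset.prod_apply, Finset.prod_apply]
  refine Finset.prod_congr rfl fun c _ => ?_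
  rw [dt, dt]
  congr 1
  ext s' k
  rw [Matrix.of_apply, Matrix.of_apply, hJ1]

end

end Vale.Agent.P181.H261
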