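import Mathlib

set_option autoImplicit false

/-!
P181, complement of T6 (`(2 + ε) a ≤ b`): the supports of the letters. The letter `2 v` has the
support `{v}`, the letter `2 v + 1` has the support `{v - 1, v}` for `v ≥ 1`, and the letter `1`
has the support `{0, 2, N - 1}`. Here `N = b / 2`; if `b` is odd then the last letter `2 N` has the
support `{N}`.
-/

namespace Vale.Agent.P181.H261

/-- The support of the letter `k`. -/
def sup (N k : ℕ) : Finset ℕ :=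
  if k = 1 then {0, 2, N - 1} else if k % 2 = 0 then {k / 2} else {k / 2 - 1, k / 2}

/-- Leaf (R1): rigidity. -/
def RigidStmt : Prop := ∀ (N b : ℕ), 6 ≤ N → 2 * N ≤ b → b ≤ 2 * N + 1 →
  ∀ φ : Equiv.Perm (Fin b),
    (∀ D : Finset (Fin b), D.card ≤ 4 → (D.biUnion fun k => sup N k).card < D.card →
      ∃ D' ⊆ D.map φ.toEmbedding, (D'.biUnion fun k => sup N k).card < D'.card) →
    φ = 1

/-- Leaf (R2): Gale-Ryser for nearly constant row sums (use Hall's theorem: left side = slots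
`Σ c, Fin (n c)` and anti-slots `Σ v, Fin (card F - g v)`, right side = pairs `F × V`). -/
def FillStmt : Prop := ∀ (F V : Type) [Fintype F] [Fintype V] [DecidableEq F] [DecidableEq V]
  (n : F → ℕ) (g : V → ℕ) (a G D : ℕ), (∀ c, n c ≤ a) → a ≤ Fintype.card V →
  (∀ v, g v ≤ G) → (∀ v, G ≤ g v + D) → ∑ c, n c = ∑ v, g v →
  Fintype.card V * D ≤ (G - D) * (Fintype.card V - a) →
  ∃ U : F → Finset V, (∀ c, (U c).card = n c) ∧
    ∀ v, (Finset.univ.filter fun c => v ∈ U c).card = g v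

/-- Leaf (R3): a small family of injective selections which contains every independent set of at
most four letters. -/
def CoverStmt : Prop := ∃ C0 : ℕ, ∀ (N b L : ℕ), 3 ≤ N → 2 * N ≤ b → b ≤ 2 * N + 1 → b ≤ 2 ^ L →
  1 ≤ L →
  ∃ (P : Type) (_ : Fintype P) (sel : P → ℕ → ℕ), Fintype.card P ≤ C0 * L ^ 32 ∧
    (∀ p v, 2 * v < b → sel p v < b ∧ v ∈ sup N (sel p v)) ∧
    (∀ p v v', 2 * v < b → 2 * v' < b → sel p v = sel p v' → v = v') ∧
    ∀ S : Finset ℕ, (∀ k ∈ S, k < b) → S.card ≤ 4 →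
      (∀ D ⊆ S, D.card ≤ (D.biUnion (sup N)).card) →
      ∃ (p : P) (f : ℕ → ℕ), ∀ k ∈ S, 2 * f k < b ∧ sel p (f k) = k

/-- Leaf (R4): the choice of the parameters and the analytic inequality. `N = b / 2`,
`Mc = C0 * (Nat.size b) ^ 32 * (((b + 1) / 2) / q + 1) ^ 4`. Intended: `l = a b / (2 L0)`,
`q = l / 4`, `M = C Mc b / l`. -/
def NumStmt8 : Prop := ∀ (ε δ : ℝ), 0 < ε → 0 < δ → ∀ C0 : ℕ, ∀ᶠ a : ℕ in Filter.atTop,
  ∀ b L0 : ℕ, (2 + ε) * (a : ℝ) ≤ b → b ≤ L0 →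
    (L0 : ℝ) ≤ (a : ℝ) ^ (5 / 6 - δ) * (b : ℝ) ^ (1 / 3 : ℝ) →
    ∃ l q M Mc : ℕ, Mc = C0 * (Nat.size b) ^ 32 * (((b + 1) / 2) / q + 1) ^ 4 ∧
      1 ≤ q ∧ 4 * q ≤ l ∧ l ≤ a ∧ a ≤ b / 2 ∧ l * L0 + M * a ≤ a * b ∧ Mc ≤ M ∧ 4 * M ≤ b ∧
      (b / 2) * (2 * Mc + 1) ≤ ((M - Mc) * l / (b / 2) - 2 * Mc) * (b / 2 - a) ∧
      ∀ m S : ℕ, S ≤ M * a → m + S = a * b →
        (a : ℝ) ^ S * ((m + b / 2 - 1).choose (b / 2 - 1) : ℝ) ≤
          Real.exp (((b / 2 - a : ℕ) : ℝ) * (m : ℝ) / ((b / 2 + L0 : ℕ) : ℝ))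

end Vale.Agent.P181.H261
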