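import Vale.Agent.P181.S6.SpecG
import Vale.Agent.P181.T7.Cond
import Vale.Agent.P181.T4.Asm
import Vale.Agent.P181.H539.UpStmt

set_option autoImplicit false

/-!
# P181, S6: all `b ≥ (1 + δ) a` and all partitions with at least `a ^ ε * b` cells below the row
`a ^ ε`
-/

namespace Vale.Agent.P181.H261

open Filter
open Vale.Agent.P181.T4 Vale.Agent.P181.T7 Vale.Agent.P181.H280 Vale.Agent.P181.H463

/-- Eventual inequalities. -/
theorem ev_tail (ε : ℝ) (hε : 0 < ε) (C : ℕ) : ∀ᶠ a : ℕ in atTop,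
    0 < Real.log a ∧ (1 + Real.log a) * Real.log a ^ C < (a : ℝ) ^ ε := by
  have h2 : ∀ᶠ x : ℝ in atTop, 1 ≤ Real.log x := Real.tendsto_log_atTop.eventually_ge_atTop 1
  have h3 : ∀ᶠ x : ℝ in atTop, ‖Real.log x ^ ((C + 1 : ℕ) : ℝ)‖ ≤ 1 / 4 * ‖x ^ ε‖ :=
    (isLittleO_log_rpow_rpow_atTop ((C + 1 : ℕ) : ℝ) hε).bound (by positivity)
  have h4 : ∀ᶠ x : ℝ in atTop, 0 < Real.log x ∧ (1 + Real.log x) * Real.log x ^ C < x ^ ε := by
    filter_upwards [h2, h3, eventually_gt_atTop (0 : ℝ)] with x hx2 hx3 hx0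
    refine ⟨by linarith, ?_⟩
    rw [Real.norm_of_nonneg (Real.rpow_nonneg hx0.le ε), Real.rpow_natCast,
      Real.norm_of_nonneg (by positivity), pow_succ] at hx3
    have h5 : 0 ≤ Real.log x ^ C := by positivity
    have h6 : (1 + Real.log x) * Real.log x ^ C ≤ (2 * Real.log x) * Real.log x ^ C :=
      mul_le_mul_of_nonneg_right (by linarith) h5
    have h7 : (2 * Real.log x) * Real.log x ^ C = 2 * (Real.log x ^ C * Real.log x) := by ring
    have h8 : 0 < x ^ ε := Real.rpow_pos_of_pos hx0 ε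
    linarith
  exact tendsto_natCast_atTop_atTop.eventually h4

/-- If every class is small then the tail is small. -/
lemma below_le_of_class {a : ℕ} (ha : 1 ≤ a) (lam : Fin a → ℕ) (j : ℕ) (B : ℝ) (hB : 0 ≤ B)
    (h : ∀ l : ℕ, j + 1 ≤ l → l ≤ a → (l : ℝ) * ex lam (l - 1) ≤ B) :
    (below j lam : ℝ) ≤ (1 + Real.log a) * B := by
  have h1 : (below j lam : ℝ) ≤ ∑ i ∈ Finset.Ico j a, B * (1 / ((i : ℝ) + 1)) := by
    rw [below, Nat.cast_sum]
    apply Finset.sum_le_sum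
    intro i hi
    rw [Finset.mem_Ico] at hi
    have h2 := h (i + 1) (by omega) (by omega)
    rw [Nat.add_sub_cancel] at h2
    have h3 : (0 : ℝ) < (i : ℝ) + 1 := by positivity
    rw [mul_one_div, le_div_iff₀ h3]
    push_cast at h2
    linarith
  have h2 : ∑ i ∈ Finset.Ico j a, B * (1 / ((i : ℝ) + 1)) ≤
      ∑ i ∈ Finset.range a, B * (1 / ((i : ℝ) + 1)) := by
    apply Finset.sum_le_sum_of_subset_of_nonneg
    · intro i hi
      rw [Finset.mem_Ico] at hi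
      exact Finset.mem_range.2 hi.2
    · intro i _ _
      positivity
  have h3 : ∑ i ∈ Finset.range a, (1 / ((i : ℝ) + 1)) ≤ 1 + Real.log a := by
    have h4 := harmonic_le_one_add_log a
    have h5 : ((harmonic a : ℚ) : ℝ) = ∑ i ∈ Finset.range a, (1 / ((i : ℝ) + 1)) := by
      rw [harmonic]
      push_cast
      apply Finset.sum_congr rfl
      intro i _
      rw [one_div]
    rw [h5] at h4
    exact h4
  have h4 := h1.trans h2
  rw [← Finset.mul_sum] at h4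
  calc (below j lam : ℝ) ≤ B * ∑ i ∈ Finset.range a, (1 / ((i : ℝ) + 1)) := h4
    _ ≤ B * (1 + Real.log a) := mul_le_mul_of_nonneg_left h3 hB
    _ = _ := mul_comm _ _

/-- The upper bound. -/
lemma pleth_le_gt {a b : ℕ} (lam : Fin a → ℕ) (hlam : Antitone lam) :
    plethMult a b a lam ≤ gt a a lam := by
  have h1 := plethMult_le_pow (a := a) (b := b) (c := a) (R := 0) (m := a) (by omega) lam 0
    (fun i hi => absurd hi (by omega))
  have h2 : (fun i : Fin a => lam ⟨0 + i, by have := i.isLt; omega⟩) = lam := by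
    funext i
    congr 1
    ext
    simp
  rw [h2] at h1
  have h3 := Vale.Agent.P181.H539.up_stmt a a lam hlam
  rw [zero_mul, pow_zero, one_mul] at h1
  exact h1.trans h3

/-- **The tail theorem**, `a` rows. -/
theorem tail6 (h9 : S6.LB9) (ε δ : ℝ) (hε : 0 < ε) (hδ : 0 < δ) : ∀ᶠ a : ℕ in atTop, ∀ b : ℕ,
    (1 + δ) * a ≤ b → ∀ lam : Fin a → ℕ, Antitone lam → ∑ i, lam i = a * b →
    (a : ℝ) ^ ε * b ≤ below ⌈(a : ℝ) ^ ε⌉₊ lam → plethMult a b a lam ≤ plethMult b a a lam := by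
  obtain ⟨C, hC⟩ := h9 ε δ hε hδ
  filter_upwards [hC, ev_tail ε hε C, eventually_ge_atTop 1] with a h9a ⟨hlog, he⟩ ha b hab lam
    hlam hsum hD
  by_cases hb2 : b ≤ a ^ 2
  · have hex : ∃ l : ℕ, ⌈(a : ℝ) ^ ε⌉₊ + 1 ≤ l ∧ l ≤ a ∧
        (b : ℝ) * Real.log a ^ C ≤ l * ex lam (l - 1) := by
      by_contra hcon
      push Not at hcon
      have h1 := below_le_of_class ha lam ⌈(a : ℝ) ^ ε⌉₊ ((b : ℝ) * Real.log a ^ C)
        (by positivity) (fun l hl hla => (hcon l hl hla).le)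
      have hb0 : (0 : ℝ) < b := by
        have h2 : (0 : ℝ) < a := by exact_mod_cast ha
        have h3 : 0 < (1 + δ) * a := by positivity
        linarith
      have h2 : (1 + Real.log a) * ((b : ℝ) * Real.log a ^ C) < (a : ℝ) ^ ε * b := by
        calc (1 + Real.log a) * ((b : ℝ) * Real.log a ^ C)
            = ((1 + Real.log a) * Real.log a ^ C) * b := by ring
          _ < (a : ℝ) ^ ε * b := mul_lt_mul_of_pos_right he hb0
      linarith
    obtain ⟨l, hl, hla, hm⟩ := hex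
    have hl1 : (a : ℝ) ^ ε ≤ l := by
      have h1 : (⌈(a : ℝ) ^ ε⌉₊ : ℝ) ≤ l := by exact_mod_cast (by omega : ⌈(a : ℝ) ^ ε⌉₊ ≤ l)
      exact (Nat.le_ceil _).trans h1
    have h5 := h9a a b a l lam le_rfl hab hb2 le_rfl hlam hsum hl1 hla hm
    have h6 : (gt a a lam : ℝ) ≤ (plethMult b a a lam : ℝ) := by
      refine le_trans ?_ h5
      exact le_mul_of_one_le_right (Nat.cast_nonneg _) (Real.one_le_exp (by positivity))
    have h7 : gt a a lam ≤ plethMult b a a lam := by exact_mod_cast h6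
    exact (pleth_le_gt lam hlam).trans h7
  · apply H463.big_stmt
    have h5 : (a - 1) ^ 2 ≤ a ^ 2 := Nat.pow_le_pow_left (Nat.sub_le a 1) 2
    omega

/-- **The tail theorem**, all numbers of rows. -/
theorem tail6_all (h9 : S6.LB9) (ε δ : ℝ) (hε : 0 < ε) (hδ : 0 < δ) : ∃ a₀ : ℕ, ∀ a : ℕ,
    a₀ ≤ a → ∀ (b n : ℕ) (lam : Fin n → ℕ), (1 + δ) * a ≤ b →
    (a : ℝ) ^ ε * b ≤ cells ⌈(a : ℝ) ^ ε⌉₊ lam → plethMult a b n lam ≤ plethMult b a n lam := by
  obtain ⟨a₀, h⟩ := eventually_atTop.1 (tail6 h9 ε δ hε hδ)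
  refine ⟨a₀, fun a ha b n lam hab hD => ?_⟩
  exact all_n_cells H530.pad_stmt H530.zero_stmt
    (fun f => (a : ℝ) ^ ε * b ≤ (f ⌈(a : ℝ) ^ ε⌉₊ : ℝ))
    (fun mu hmu hsum hQ => h a ha b hab mu hmu hsum hQ) n lam hD

end Vale.Agent.P181.H261
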